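import Vale.Agent.P301Z.An.Sk
import Vale.Agent.P278.Bdl.B2

/-!
# P301Z, block ANA: analytic integrable Beltrami coefficients
-/

open scoped ContDiff Topology
open Set Filter Complex
open Vale.Agent.P272.K

noncomputable section

namespace Vale.Agent.P301Z.An

namespace Af

/-- first integrals of an integrable holomorphic distribution -/
theorem exists_int {A B : Type} [NormedAddCommGroup A] [NormedSpace ℂ A] [CompleteSpace A]
    [NormedAddCommGroup B] [NormedSpace ℂ B] [CompleteSpace B] {F : A × B → A →L[ℂ] B}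
    (hF : AnalyticAt ℂ F 0) (hint : ∀ᶠ p in 𝓝 (0 : A × B), ∀ v w,
      fderiv ℂ F p (v, F p v) w = fderiv ℂ F p (w, F p w) v) :
    ∃ C : A × B → B, AnalyticAt ℂ C 0 ∧ (∀ k, fderiv ℂ C 0 (0, k) = k) ∧
      ∀ᶠ p in 𝓝 (0 : A × B), ∀ v, fderiv ℂ C p (v, F p v) = 0 := by
  obtain ⟨Y, hY, hY0, hYb, hYd⟩ := Vale.Agent.P278.frobenius_graph hF hint
  have hd0 : HasFDerivAt Y (fderiv ℂ Y 0) 0 := (hY.differentiableAt (by simp)).hasFDerivAt
  have hk : ∀ k, fderiv ℂ Y 0 (0, k) = k := fun k => by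
    have h1 : HasFDerivAt (fun b : B => Y (0, b))
        ((fderiv ℂ Y 0).comp (ContinuousLinearMap.inr ℂ A B)) 0 :=
      HasFDerivAt.comp (0 : B) (g := Y) (f := fun b : B => ((0 : A), b)) hd0
        (ContinuousLinearMap.inr ℂ A B).hasFDerivAt
    have h2 := ((hasFDerivAt_id (𝕜 := ℂ) (0 : B)).congr_of_eventuallyEq hYb).unique h1
    exact (congrArg (fun l : B →L[ℂ] B => l k) h2).symm
  have hΘ : ContDiffAt ℂ ω (fun p : A × B => (p.1, Y p)) 0 := contDiffAt_fst.prodMk hY
  have hΘ0 : ((0 : A × B).1, Y 0) = 0 := by simp [hY0]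
  let e : (A × B) ≃L[ℂ] (A × B) :=
    (ContinuousLinearEquiv.refl ℂ A).skewProd (ContinuousLinearEquiv.refl ℂ B) (F 0)
  have he : HasFDerivAt (fun p : A × B => (p.1, Y p)) (e : (A × B) →L[ℂ] (A × B)) 0 := by
    refine (hasFDerivAt_fst.prodMk hd0).congr_fderiv (ContinuousLinearMap.ext fun p => ?_)
    have h1 := hYd.self_of_nhds p.1
    have h2 : p = (p.1, 0) + (0, p.2) := by simp
    refine Prod.ext rfl ?_
    change fderiv ℂ Y 0 p = p.2 + F 0 p.1
    rw [h2, map_add, h1, hk, hY0, add_comm]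
    simp only [Prod.mk_add_mk, zero_add, add_zero]
    rfl
  have hs := hΘ.hasStrictFDerivAt' he (by simp)
  have hΨ := hΘ.to_localInverse he (by simp)
  have hl := hs.eventually_left_inverse
  have hr := hs.eventually_right_inverse
  have ht := hs.localInverse_tendsto
  rw [ContDiffAt.localInverse] at hΨ
  generalize hs.localInverse _ _ _ = Ψ at hΨ hl hr ht
  rw [hΘ0] at hΨ hr ht
  have hC : ContDiffAt ℂ ω (fun p => (Ψ p).2) 0 := contDiffAt_snd.comp 0 hΨ
  have hc : Tendsto (fun p : A × B => (p.1, Y p)) (𝓝 0) (𝓝 (0 : A × B)) := by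
    have h : Tendsto _ _ (𝓝 ((0 : A × B).1, Y 0)) := hΘ.continuousAt.tendsto
    rwa [hΘ0] at h
  have key : ∀ᶠ q in 𝓝 (0 : A × B), ∀ x : A × B,
      fderiv ℂ (fun p => (Ψ p).2) (q.1, Y q) (x.1, fderiv ℂ Y q x) = x.2 := by
    filter_upwards [hl.eventually_nhds, hY.eventually (by simp),
      hc.eventually (hC.eventually (by simp))] with q h1 h2 h3 x
    have h4 := (h3.differentiableAt (by simp)).hasFDerivAt.comp q
      (hasFDerivAt_fst.prodMk (h2.differentiableAt (by simp)).hasFDerivAt)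
    have h5 := ((hasFDerivAt_snd (𝕜 := ℂ) (p := q)).congr_of_eventuallyEq
      (h1.mono fun y hy => congrArg Prod.snd hy)).unique h4
    exact (congrArg (fun l : (A × B) →L[ℂ] B => l x) h5).symm
  refine ⟨fun p => (Ψ p).2, hC.analyticAt, fun k => ?_, ?_⟩
  · have h1 := key.self_of_nhds (0, k)
    rwa [hk, hY0] at h1
  · filter_upwards [hr, ht.eventually key, ht.eventually hYd] with p h1 h2 h3 v
    have h4 := h2 (v, 0)
    rwa [h3, h1] at h4

variable {N : ℕ}

theorem ext_pi {W : Type} [NormedAddCommGroup W] [NormedSpace ℂ W] (f g : Cm N →L[ℂ] W)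
    (h : ∀ i, f (Pi.single i 1) = g (Pi.single i 1)) : f = g :=
  ContinuousLinearMap.coe_injective ((Pi.basisFun ℂ (Fin N)).ext fun i => by simpa using h i)

/-- the complex linear map with the values `- T e_j` -/
def lam : (Cm N →L[ℝ] Cm N) →L[ℝ] (Cm N →L[ℂ] Cm N) :=
  LinearMap.toContinuousLinearMap
    { toFun := fun T => -∑ j, (ContinuousLinearMap.proj j : Cm N →L[ℂ] ℂ).smulRight
        (T (Pi.single j 1))
      map_add' := fun T T' => by
        ext v i
        simp [Finset.sum_add_distrib, add_comm]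
      map_smul' := fun c T => by
        ext v i
        simp [Finset.mul_sum, mul_left_comm] }

theorem anti_smul {T : Cm N →L[ℝ] Cm N} (hT : Anti T) (c : ℂ) (u : Cm N) :
    T (c • u) = star c • T u := by
  have h : ∀ (c : ℂ) (u : Cm N), c • u = c.re • u + c.im • I • u := fun c u => by
    conv_lhs => rw [← re_add_im c, add_smul, mul_smul]
    rfl
  rw [h c u, h (star c), map_add, map_smul, map_smul, hT]
  simp

theorem lam_star {T : Cm N →L[ℝ] Cm N} (hT : Anti T) (u : Cm N) : lam T (star u) = -T u := by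
  have h : T u = ∑ j, star (u j) • T (Pi.single j 1) := by
    conv_lhs => rw [pi_eq_sum_univ' u, map_sum]
    exact Finset.sum_congr rfl fun j _ => anti_smul hT _ _
  rw [h]
  simp [lam]

/-- the diagonal -/
def io : Cm N →L[ℝ] Cm N × Cm N :=
  ((starL' ℝ : Cm N ≃L[ℝ] Cm N) : Cm N →L[ℝ] Cm N).prod (ContinuousLinearMap.id ℝ _)

theorem io_apply (z : Cm N) : io z = (star z, z) := rfl

theorem fderiv_io {W : Type} [NormedAddCommGroup W] [NormedSpace ℝ W] [NormedSpace ℂ W]
    [IsScalarTower ℝ ℂ W] {G : Cm N × Cm N → W} {z : Cm N} (h : AnalyticAt ℂ G (io z)) (u : Cm N) :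
    fderiv ℝ (fun y => G (io y)) z u = fderiv ℂ G (io z) (io u) := by
  have h1 := ((h.differentiableAt.hasFDerivAt.restrictScalars ℝ).comp z io.hasFDerivAt).fderiv
  exact congrArg (fun l : Cm N →L[ℝ] W => l u) h1

theorem tendsto_io : Tendsto (io : Cm N → _) (𝓝 0) (𝓝 0) := io.continuous.tendsto' _ _ (map_zero _)

theorem integ (h : CX) {B : Cm N → Cm N →L[ℝ] Cm N} (hB : AnalyticAt ℝ B 0)
    (hb : ∀ᶠ w in 𝓝 (0 : Cm N), Bel B w) {F : Cm N × Cm N → Cm N →L[ℂ] Cm N}
    (hF : AnalyticAt ℂ F 0) (hFB : ∀ᶠ z in 𝓝 (0 : Cm N), ∀ u, F (io z) (star u) = -B z u) :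
    ∀ᶠ p in 𝓝 (0 : Cm N × Cm N), ∀ v w,
      fderiv ℂ F p (v, F p v) w = fderiv ℂ F p (w, F p w) v := by
  have h1 : ∀ᶠ z in 𝓝 (0 : Cm N), ∀ v w, fderiv ℂ F (io z) (v, F (io z) v) w =
      fderiv ℂ F (io z) (w, F (io z) w) v := by
    filter_upwards [hb, hFB.eventually_nhds, tendsto_io.eventually hF.eventually_analyticAt,
      hB.eventually_analyticAt] with z hz hFz hA hBz v w
    have h2 : ∀ u c, fderiv ℝ B z u c = -fderiv ℂ F (io z) (io u) (star c) := fun u c => by
      have h3 := (hBz.differentiableAt.hasFDerivAt.clm_apply (hasFDerivAt_const c z)).neg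
      have h4 : HasFDerivAt (fun y => F (io y)) (fderiv ℝ (fun y => F (io y)) z) z :=
        ((hA.differentiableAt.restrictScalars ℝ).comp z io.differentiableAt).hasFDerivAt
      have h5 := (((ContinuousLinearMap.apply ℂ (Cm N) (star c)).restrictScalars
        ℝ).hasFDerivAt.comp z h4).congr_of_eventuallyEq (f₁ := -fun y => B y c)
        (hFz.mono fun y hy => (hy c).symm)
      have h6 := congrArg (fun l : Cm N →L[ℝ] Cm N => l u) (h3.unique h5)
      rw [← fderiv_io hA]
      simpa [neg_eq_iff_eq_neg] using h6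
    have h7 : ∀ a c, fderiv ℝ B z (a - B z a) c + I • fderiv ℝ B z (I • (a + B z a)) c =
        -((2 : ℂ) • fderiv ℂ F (io z) (star a, F (io z) (star a)) (star c)) := fun a c => by
      have h8 : io (a - B z a) + I • io (I • (a + B z a)) =
          (2 : ℂ) • (star a, F (io z) (star a)) := by
        rw [hFz.self_of_nhds a]
        refine Prod.ext (funext fun i => ?_) (funext fun i => ?_)
        · simp [io_apply]
          linear_combination (-(starRingEnd ℂ) (a i) - (starRingEnd ℂ) (B z a i)) * I_mul_I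
        · simp [io_apply]
          linear_combination (a i + B z a i) * I_mul_I
      rw [h2, h2, smul_neg, ← neg_add, ← _root_.smul_apply, ← map_smul,
        ← _root_.add_apply, ← map_add, h8, map_smul, _root_.smul_apply]
    have h9 := hz (star v) (star w)
    rw [h7, h7, star_star, star_star, neg_inj] at h9
    exact smul_right_injective _ two_ne_zero h9
  have hc : ContDiffAt ℂ ω F 0 := hF.contDiffAt
  have hd : ∀ v w : Cm N, ContDiffAt ℂ ω (fun p => fderiv ℂ F p (v, F p v) w) 0 := fun v w =>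
    (hF.fderiv.contDiffAt.clm_apply
      (contDiffAt_const.prodMk (hc.clm_apply contDiffAt_const))).clm_apply contDiffAt_const
  have h2 : ∀ v w : Cm N, ∀ᶠ p in 𝓝 (0 : Cm N × Cm N),
      fderiv ℂ F p (v, F p v) w - fderiv ℂ F p (w, F p w) v = 0 := fun v w =>
    h.uniq N (Cm N) _ ((hd v w).sub (hd w v)).analyticAt (h1.mono fun z hz => sub_eq_zero.2 (hz v w))
  filter_upwards [eventually_all.2 fun i => eventually_all.2 fun j =>
    h2 (Pi.single i 1) (Pi.single j 1)] with p hp v w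
  let β := (fderiv ℂ F p).comp ((ContinuousLinearMap.id ℂ (Cm N)).prod (F p))
  have h3 : β = β.flip := ext_pi _ _ fun i => ext_pi _ _ fun j => sub_eq_zero.1 (hp i j)
  exact congrArg (fun l : Cm N →L[ℂ] Cm N →L[ℂ] Cm N => l v w) h3

end Af

open Af in
theorem af_of (h : CX) : AF := by
  intro N B hB hb
  have : FiniteDimensional ℝ (Cm N →L[ℂ] Cm N) := Module.Finite.trans ℂ _
  obtain ⟨F, hF, hFB⟩ := h.ext N _ (fun z => lam (B z)) ((lam.analyticAt _).comp hB)
  have h1 : ∀ᶠ z in 𝓝 (0 : Cm N), ∀ u, F (io z) (star u) = -B z u := by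
    filter_upwards [hFB, hb] with z h1 h2 u
    rw [io_apply, h1, lam_star h2.1]
  obtain ⟨C, hC, hk, hC0⟩ := exists_int hF (integ h hB (hb.mono fun _ h => h.2) hF h1)
  have h2 : ∀ᶠ w in 𝓝 (0 : Cm N), ∀ u,
      fderiv ℝ (fun y => C (io y)) w u = fderiv ℂ C (io w) (0, u + B w u) := by
    filter_upwards [h1, tendsto_io.eventually hC0, tendsto_io.eventually hC.eventually_analyticAt]
      with w h3 h4 h5 u
    have h6 : io u = (star u, F (io w) (star u)) + (0, u + B w u) := by
      rw [h3, io_apply]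
      simp
    rw [fderiv_io h5, h6, map_add, h4, zero_add]
  refine ⟨fun y => C (io y), ?_, fun u => ?_, h2.mono fun w hw =>
    ⟨(fderiv ℂ C (io w)).comp (ContinuousLinearMap.inr ℂ _ _), hw⟩⟩
  · exact (hC.restrictScalars (𝕜 := ℝ)).comp_of_eq (io.analyticAt 0) (map_zero _)
  · rw [h2.self_of_nhds u, map_zero, hk]

end Vale.Agent.P301Z.An
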