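import Vale.Agent.P301Z.An.Sk

/-!
# P301Z, block ANA: analytic superposition operators on Hoelder spaces
-/

open scoped ContDiff Topology NNReal ENNReal
open Set Filter
open Vale.Agent.P272.K Vale.Agent.P272.K.LIN

noncomputable section

namespace Vale.Agent.P301Z.An

namespace Anem

variable {Y : Type} {w : Y → Y → ℝ≥0} {V W : Type} [NormedAddCommGroup V] [NormedSpace ℝ V]
  [NormedAddCommGroup W] [NormedSpace ℝ W] {n : ℕ}

theorem sup_le (q : V [×n]→L[ℝ] W) (u : Fin n → Hol w V) (x : Y) :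
    ‖q fun i => u i x‖ ≤ ‖q‖ * ∏ i, ‖u i‖ := by
  refine (q.le_opNorm _).trans ?_
  gcongr with i
  exact (u i).norm_apply_le x

theorem sub_le (q : V [×n]→L[ℝ] W) (u : Fin n → Hol w V) (x y : Y) :
    ‖(q fun i => u i x) - q fun i => u i y‖ ≤ n * (‖q‖ * ∏ i, ‖u i‖) * w x y := by
  refine (q.norm_image_sub_le' _ _).trans ?_
  have h : ∀ i : Fin n, (∏ j, if j = i then ‖u i x - u i y‖ else max ‖u j x‖ ‖u j y‖) ≤
      (∏ j, ‖u j‖) * w x y := fun i => by
    have h1 : (∏ j, ‖u j‖) * (w x y : ℝ) = ∏ j, (‖u j‖ * if j = i then (w x y : ℝ) else 1) := by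
      rw [Finset.prod_mul_distrib, Finset.prod_ite_eq', if_pos (Finset.mem_univ i)]
    rw [h1]
    refine Finset.prod_le_prod (fun j _ => ?_) fun j _ => ?_
    · split_ifs <;> positivity
    · split_ifs with e
      · rw [e]
        exact (u i).norm_sub_le' x y
      · rw [mul_one]
        exact max_le ((u j).norm_apply_le x) ((u j).norm_apply_le y)
  calc _ ≤ ‖q‖ * ∑ _i : Fin n, (∏ j, ‖u j‖) * (w x y : ℝ) :=
        mul_le_mul_of_nonneg_left (Finset.sum_le_sum fun i _ => h i) (norm_nonneg _)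
    _ = _ := by simp only [Finset.sum_const, Finset.card_univ, Fintype.card_fin, nsmul_eq_mul]; ring

theorem upd {inst : DecidableEq (Fin n)} (m : Fin n → Hol w V) (i : Fin n) (z : Hol w V) (x : Y) :
    (fun j => Function.update m i z j x) = Function.update (fun j => m j x) i (z x) := by
  funext j
  rw [Function.update_apply, Function.update_apply]
  split_ifs <;> rfl

/-- the pointwise application of a multilinear map -/
def pm (q : V [×n]→L[ℝ] W) : MultilinearMap ℝ (fun _ : Fin n => Hol w V) (Hol w W) where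
  toFun u := ⟨fun x => q fun i => u i x, ⟨_, sup_le q u⟩, ⟨_, sub_le q u⟩⟩
  map_update_add' m i a b := by
    ext x
    simp only [Hol.add_apply, upd]
    exact q.map_update_add _ _ _ _
  map_update_smul' m i c a := by
    ext x
    simp only [Hol.smul_apply, upd]
    exact q.map_update_smul _ _ _ _

theorem pm_le (q : V [×n]→L[ℝ] W) (u : Fin n → Hol w V) :
    ‖pm q u‖ ≤ 2 ^ n * ‖q‖ * ∏ i, ‖u i‖ := by
  have h0 : 0 ≤ ‖q‖ * ∏ i, ‖u i‖ := by positivity
  have h1 : (n : ℝ) + 1 ≤ 2 ^ n := by exact_mod_cast Nat.lt_two_pow_self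
  refine (Hol.norm_le_of (f := pm q u) h0 (by positivity) (sup_le q u) (sub_le q u)).trans ?_
  rw [mul_assoc]
  nlinarith

variable (w) in
/-- the pointwise series -/
def ser (p : FormalMultilinearSeries ℝ V W) : FormalMultilinearSeries ℝ (Hol w V) (Hol w W) :=
  fun n => (pm (p n)).mkContinuous _ (pm_le (p n))

theorem radius_pos {p : FormalMultilinearSeries ℝ V W} (hp : 0 < p.radius) :
    0 < (ser w p).radius := by
  obtain ⟨r, h0, h1⟩ := ENNReal.lt_iff_exists_nnreal_btwn.1 hp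
  obtain ⟨C, -, hC⟩ := p.norm_mul_pow_le_of_lt_radius h1
  refine lt_of_lt_of_le ?_ ((ser w p).le_radius_of_bound C (r := r / 2) fun n => ?_)
  · exact ENNReal.coe_pos.2 (half_pos (ENNReal.coe_pos.1 h0))
  · have h2 : ‖ser w p n‖ ≤ 2 ^ n * ‖p n‖ := MultilinearMap.mkContinuous_norm_le _ (by positivity) _
    refine (mul_le_mul_of_nonneg_right h2 (by positivity)).trans (le_of_eq_of_le ?_ (hC n))
    push_cast
    rw [div_pow]
    field_simp

end Anem

theorem anem : ANEM := by
  intro Y w V _ _ _ W _ _ _ Φ ⟨p, r, hΦ⟩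
  have : CompleteSpace W := FiniteDimensional.complete ℝ W
  have h := (Anem.ser w p).hasFPowerSeriesOnBall (Anem.radius_pos (hΦ.r_pos.trans_le hΦ.r_le))
  refine ⟨_, h.analyticAt, ?_⟩
  filter_upwards [Metric.eball_mem_nhds 0 h.r_pos, Metric.eball_mem_nhds 0 hΦ.r_pos] with u h1 h2 x
  have h3 : u x ∈ Metric.eball (0 : V) r := by
    rw [mem_eball_zero_iff] at h2 ⊢
    exact lt_of_le_of_lt (ENNReal.coe_le_coe.2 (u.norm_apply_le x)) h2
  have h4 := (Hol.evalL x).hasSum (h.hasSum h1)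
  have h5 := hΦ.hasSum h3
  rw [zero_add] at h4 h5
  exact h4.unique h5

end Vale.Agent.P301Z.An
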