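import Vale.Agent.P301Z.An.Sk
import Mathlib.Analysis.Calculus.FDeriv.RestrictScalars
import Mathlib.Analysis.Normed.Module.FiniteDimension
import Mathlib.LinearAlgebra.Basis.VectorSpace
import Mathlib.LinearAlgebra.Complex.FiniteDimensional
import Mathlib.LinearAlgebra.FiniteDimensional.Lemmas

/-!
# P301Z, block ANA: holomorphic parameters, closed two-forms
-/

open scoped ContDiff Topology
open Set Filter Complex Module ContinuousLinearMap

noncomputable section

namespace Vale.Agent.P301Z.An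

namespace Cnn

section real

variable {P E V : Type} [NormedAddCommGroup P] [NormedSpace ℝ P] [NormedAddCommGroup E]
  [NormedSpace ℝ E] [NormedAddCommGroup V] [NormedSpace ℝ V]

theorem has_snd {f : P × E → V} {q : P × E} (h : DifferentiableAt ℝ f q) :
    HasFDerivAt (fun y => f (q.1, y)) ((fderiv ℝ f q).comp (inr ℝ P E)) q.2 :=
  h.hasFDerivAt.comp q.2 (hasFDerivAt_prodMk_right q.1 q.2)

theorem has_fst {f : P × E → V} {q : P × E} (h : DifferentiableAt ℝ f q) :
    HasFDerivAt (fun p => f (p, q.2)) ((fderiv ℝ f q).comp (inl ℝ P E)) q.1 :=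
  h.hasFDerivAt.comp q.1 (hasFDerivAt_prodMk_left q.1 q.2)

theorem Dy_eq {f : P × E → V} {q : P × E} (h : DifferentiableAt ℝ f q) :
    Dy f q = (fderiv ℝ f q).comp (inr ℝ P E) := (has_snd h).fderiv

theorem has_app {θ : P → E →L[ℝ] V} {q : P} (h : DifferentiableAt ℝ θ q) (u : E) :
    HasFDerivAt (fun q => θ q u) ((fderiv ℝ θ q).flip u) q := by
  simpa using h.hasFDerivAt.clm_apply (hasFDerivAt_const u q)

theorem fd_comp {G : Type} [NormedAddCommGroup G] [NormedSpace ℝ G] (π : G →L[ℝ] V)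
    {O : P → E →L[ℝ] G} {y : P} (hO : DifferentiableAt ℝ O y) (a : P) (b : E) :
    fderiv ℝ (fun x => π.comp (O x)) y a b = π (fderiv ℝ O y a b) := by
  have h1 : HasFDerivAt (fun x => π.comp (O x)) ((compL ℝ E G V π).comp (fderiv ℝ O y)) y :=
    (compL ℝ E G V π).hasFDerivAt.comp y hO.hasFDerivAt
  rw [h1.fderiv]
  rfl

theorem ev_bij [FiniteDimensional ℝ E] [FiniteDimensional ℝ V] {X : Type} [TopologicalSpace X]
    {T : X → E →L[ℝ] V} {x : X} (h : ContinuousAt T x) (hb : Function.Bijective (T x)) :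
    ∀ᶠ y in 𝓝 x, Function.Bijective (T y) := by
  have h1 := (LinearEquiv.ofBijective (T x : E →ₗ[ℝ] V) hb).finrank_eq
  filter_upwards [h.eventually (isOpen_injective.mem_nhds hb.1)] with y hy
  exact ⟨hy, (LinearMap.injective_iff_surjective_of_finrank_eq_finrank
    (f := (T y : E →ₗ[ℝ] V)) h1).1 hy⟩

theorem inv_of_bij [FiniteDimensional ℝ E] {T : E →L[ℝ] E} (hb : Function.Bijective T) :
    T.IsInvertible :=
  ⟨(LinearEquiv.ofBijective (T : E →ₗ[ℝ] E) hb).toContinuousLinearEquiv, by ext; rfl⟩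

theorem sm_diff {f : E → V} {x : E} (h : Sm f x) : ∀ᶠ y in 𝓝 x, DifferentiableAt ℝ f y :=
  h.mono fun _ hy => hy.differentiableAt (by simp)

end real

section complex

variable {P E F : Type} [NormedAddCommGroup P] [NormedSpace ℝ P] [NormedSpace ℂ P]
  [IsScalarTower ℝ ℂ P] [NormedAddCommGroup E] [NormedSpace ℝ E] [NormedAddCommGroup F]
  [NormedSpace ℝ F] [NormedSpace ℂ F] [IsScalarTower ℝ ℂ F]

theorem csmul (z : ℂ) (a : P) : z • a = z.re • a + z.im • I • a := by
  conv_lhs => rw [← re_add_im z]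
  rw [add_smul, mul_smul]
  exact congrArg₂ _ (algebraMap_smul ℂ z.re a) (algebraMap_smul ℂ z.im _)

/-- the equations of Cauchy and Riemann in the parameter -/
theorem hol_iff {f : P × E → F} {q : P × E} (h : DifferentiableAt ℝ f q) :
    DifferentiableAt ℂ (fun p => f (p, q.2)) q.1 ↔
      ∀ a, fderiv ℝ f q (I • a, 0) = I • fderiv ℝ f q (a, 0) := by
  have h1 := has_fst h
  refine ⟨fun h2 a => ?_, fun h2 => ?_⟩
  · have h3 := h1.unique (h2.hasFDerivAt.restrictScalars ℝ)
    have h4 : ∀ a, fderiv ℝ f q (a, 0) = fderiv ℂ (fun p => f (p, q.2)) q.1 a := fun a =>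
      congrArg (fun L : P →L[ℝ] F => L a) h3
    rw [h4, h4, map_smul]
  · let L : P →L[ℂ] F :=
      { toFun := (fderiv ℝ f q).comp (inl ℝ P E)
        map_add' := map_add _
        map_smul' := fun z a => by
          rw [csmul, map_add, map_smul, map_smul, RingHom.id_apply, csmul z]
          exact congrArg (fun w => _ + z.im • w) (h2 a)
        cont := ContinuousLinearMap.continuous _ }
    exact (hasFDerivAt_of_restrictScalars ℝ (f' := L) h1 (by ext; rfl)).differentiableAt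

/-- the inclusion of the forms along the fibre -/
def Bm (P E F : Type) [NormedAddCommGroup P] [NormedSpace ℝ P] [NormedAddCommGroup E]
    [NormedSpace ℝ E] [NormedAddCommGroup F] [NormedSpace ℝ F] :
    (E →L[ℝ] F) →L[ℝ] (P × E →L[ℝ] P × F) :=
  (compL ℝ (P × E) F (P × F) (inr ℝ P F)).comp ((compL ℝ (P × E) E F).flip (snd ℝ P E))

/-- the form on the total space -/
def Th (θ : P × E → E →L[ℝ] F) (q : P × E) : P × E →L[ℝ] P × F :=
  (inl ℝ P F).comp (fst ℝ P E) + Bm P E F (θ q)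

omit [NormedSpace ℂ P] [IsScalarTower ℝ ℂ P] [NormedSpace ℂ F] [IsScalarTower ℝ ℂ F] in
theorem Th_apply (θ : P × E → E →L[ℝ] F) (q c : P × E) : Th θ q c = (c.1, θ q c.2) := by
  simp [Th, Bm]

omit [NormedSpace ℂ P] [IsScalarTower ℝ ℂ P] [NormedSpace ℂ F] [IsScalarTower ℝ ℂ F] in
theorem Th_fd {θ : P × E → E →L[ℝ] F} {q : P × E} (h : DifferentiableAt ℝ θ q) (c c' : P × E) :
    fderiv ℝ (Th θ) q c c' = (0, fderiv ℝ θ q c c'.2) := by
  have h1 : HasFDerivAt (Th θ) ((Bm P E F).comp (fderiv ℝ θ q)) q :=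
    ((Bm P E F).hasFDerivAt.comp q h.hasFDerivAt).const_add _
  rw [h1.fderiv]
  simp [Bm]

theorem int_Th {θ : P × E → E →L[ℝ] F} {q : P × E} (h : DifferentiableAt ℝ θ q)
    (h1 : Int0 (θ q) (Dy θ q)) (h2 : ∀ u, DifferentiableAt ℂ (fun p => θ (p, q.2) u) q.1) :
    Int (Th θ) q := by
  rintro ⟨a, u⟩ ⟨a', u'⟩ ⟨b, v⟩ ⟨b', v'⟩ e1 e2
  rw [Th_apply, Th_apply, Prod.smul_mk, Prod.mk.injEq] at e1 e2
  obtain ⟨rfl, e1⟩ := e1
  obtain ⟨rfl, e2⟩ := e2
  have k1 : ∀ a u, fderiv ℝ θ q (I • a, 0) u = I • fderiv ℝ θ q (a, 0) u := fun a u => by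
    have := (hol_iff (has_app h u).differentiableAt).1 (h2 u) a
    rwa [(has_app h u).fderiv] at this
  have k2 : ∀ a u, fderiv ℝ θ q (a, u) = fderiv ℝ θ q (a, 0) + Dy θ q u := fun a u => by
    rw [Dy_eq h, comp_apply, inr_apply, ← map_add, Prod.mk_add_mk, add_zero, zero_add]
  have k3 := h1 u u' v v' e1 e2
  have k4 : ∀ w : F, I • I • w = -w := fun w => by rw [smul_smul, I_mul_I, neg_one_smul]
  simp only [dd, Th_fd h, k2 _ u, k2 _ u', k2 _ v, k2 _ v', add_apply, k1, smul_sub] at k3 ⊢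
  refine Prod.ext (by simp) ?_
  simp only [Prod.snd_add, Prod.snd_sub, Prod.smul_snd, Prod.snd_zero, smul_add, k4]
  rw [← k3]
  abel

end complex

section form

variable {E : Type} [NormedAddCommGroup E] [NormedSpace ℝ E] [NormedSpace ℂ E]
  [IsScalarTower ℝ ℂ E] [FiniteDimensional ℝ E]

/-- a complex linear projection which is bijective on the range of `T` -/
theorem ex_proj {G : Type} [NormedAddCommGroup G] [NormedSpace ℝ G] [NormedSpace ℂ G]
    [IsScalarTower ℝ ℂ G] [FiniteDimensional ℝ G] (T : E →L[ℝ] G) (h1 : Function.Injective T)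
    (h2 : ∀ u, ∃ u', T u' = I • T u) : ∃ π : G →L[ℝ] E,
      (∀ l, π (I • l) = I • π l) ∧ Function.Bijective (π.comp T) := by
  let R : Submodule ℂ G :=
    { carrier := Set.range T
      add_mem' := by
        rintro _ _ ⟨a, rfl⟩ ⟨b, rfl⟩
        exact ⟨a + b, map_add _ _ _⟩
      zero_mem' := ⟨0, map_zero _⟩
      smul_mem' := by
        rintro z _ ⟨a, rfl⟩
        obtain ⟨a', ha⟩ := h2 a
        exact ⟨z.re • a + z.im • a', by rw [csmul z, map_add, map_smul, map_smul, ha]⟩ }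
  let c : E →ₗ[ℝ] R :=
    { toFun := fun a => ⟨T a, a, rfl⟩
      map_add' := fun a b => Subtype.ext (map_add _ _ _)
      map_smul' := fun r a => Subtype.ext (map_smul _ _ _) }
  have hc : Function.Bijective c :=
    ⟨fun a b e => h1 (congrArg Subtype.val e), fun ⟨_, a, e⟩ => ⟨a, Subtype.ext e⟩⟩
  have f1 : Module.Finite ℂ E := Module.Finite.of_restrictScalars_finite ℝ ℂ E
  have f2 : Module.Finite ℂ G := Module.Finite.of_restrictScalars_finite ℝ ℂ _
  have h3 : finrank ℂ R = finrank ℂ E := by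
    have k := (LinearEquiv.ofBijective c hc).finrank_eq
    rw [← finrank_mul_finrank ℝ ℂ E, ← finrank_mul_finrank ℝ ℂ R, finrank_real_complex] at k
    omega
  let e := LinearEquiv.ofFinrankEq R E h3
  obtain ⟨g, hg⟩ := R.subtype.exists_leftInverse_of_injective R.ker_subtype
  refine ⟨LinearMap.toContinuousLinearMap ((e.toLinearMap ∘ₗ g).restrictScalars ℝ),
    fun l => map_smul (e.toLinearMap ∘ₗ g) I l, ?_⟩
  have h4 : ∀ a, g (T a) = c a := fun a => congrArg (fun L : R →ₗ[ℂ] R => L (c a)) hg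
  have h5 : (fun a => e (g (T a))) = e ∘ c := funext fun a => congrArg e (h4 a)
  change Function.Bijective fun a => e (g (T a))
  rw [h5]
  exact e.bijective.comp hc

omit [IsScalarTower ℝ ℂ E] [FiniteDimensional ℝ E] in
theorem lift {T : E →L[ℝ] E →L[ℝ] ℂ} {π : (E →L[ℝ] ℂ) →L[ℝ] E} (hπ : ∀ l, π (I • l) = I • π l)
    (h1 : Function.Injective (π.comp T)) (h2 : ∀ u, ∃ u', T u' = I • T u) {u u' : E}
    (h : π.comp T u' = I • π.comp T u) : T u' = I • T u := by
  obtain ⟨w, hw⟩ := h2 u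
  rwa [h1 (show π.comp T u' = π.comp T w by rw [h, comp_apply, comp_apply, hw, hπ])]

omit [IsScalarTower ℝ ℂ E] in
/-- the derivative of the relation `O u' = I • O u` -/
theorem key {O : E → E →L[ℝ] E →L[ℝ] ℂ} {π : (E →L[ℝ] ℂ) →L[ℝ] E} {y : E}
    (hπ : ∀ l, π (I • l) = I • π l) (hO : DifferentiableAt ℝ O y)
    (hb : ∀ᶠ x in 𝓝 y, Function.Bijective (π.comp (O x)) ∧ ∀ u, ∃ u', O x u' = I • O x u)
    {u u' : E} (h : O y u' = I • O y u) (t : E) :
    ∃ z, fderiv ℝ O y t u' + O y z = I • fderiv ℝ O y t u := by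
  have := FiniteDimensional.complete ℝ E
  have h0 := hb.self_of_nhds
  let w : E → E := fun x => (π.comp (O x)).inverse (π (I • O x u))
  have hw : ∀ᶠ x in 𝓝 y, O x (w x) = I • O x u := hb.mono fun x hx =>
    lift hπ hx.1.1 hx.2 (by
      rw [(inv_of_bij hx.1).self_apply_inverse, hπ, comp_apply])
  have h1 : w y = u' := h0.1.1 (by rw [comp_apply, comp_apply, hw.self_of_nhds, h])
  have h2 : HasFDerivAt (fun x => I • O x u) (I • (fderiv ℝ O y).flip u) y :=
    (has_app hO u).const_smul I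
  have h3 : DifferentiableAt ℝ w y :=
    ((((inv_of_bij h0.1).contDiffAt_map_inverse (n := 1)).differentiableAt one_ne_zero).comp y
      ((differentiableAt_const π).clm_comp hO)).clm_apply
        (π.differentiableAt.comp y h2.differentiableAt)
  have h4 := (hO.hasFDerivAt.clm_apply h3.hasFDerivAt).unique (h2.congr_of_eventuallyEq hw)
  refine ⟨fderiv ℝ w y t, ?_⟩
  have h5 := congrArg (fun L : E →L[ℝ] E →L[ℝ] ℂ => L t) h4
  simp only [add_apply, comp_apply, flip_apply, smul_apply, h1] at h5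
  rw [add_comm, h5]

omit [NormedSpace ℂ E] [IsScalarTower ℝ ℂ E] [FiniteDimensional ℝ E] in
theorem skew {O : E → E →L[ℝ] E →L[ℝ] ℂ} {y : E} (hO : DifferentiableAt ℝ O y)
    (hs : ∀ᶠ x in 𝓝 y, ∀ u v, O x u v = -O x v u) (t u v : E) :
    fderiv ℝ O y t u v = -fderiv ℝ O y t v u := by
  have k : ∀ u v, HasFDerivAt (fun x => O x u v) (((fderiv ℝ O y).flip u).flip v) y := fun u v => by
    have := has_app (has_app hO u).differentiableAt v
    rwa [(has_app hO u).fderiv] at this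
  have h1 := (k u v).unique ((k v u).neg.congr_of_eventuallyEq (hs.mono fun x hx => hx u v))
  exact congrArg (fun L : E →L[ℝ] ℂ => L t) h1

omit [IsScalarTower ℝ ℂ E] in
theorem int0 {O : E → E →L[ℝ] E →L[ℝ] ℂ} {π : (E →L[ℝ] ℂ) →L[ℝ] E} {y : E}
    (hπ : ∀ l, π (I • l) = I • π l) (hO : DifferentiableAt ℝ O y)
    (hb : ∀ᶠ x in 𝓝 y, Function.Bijective (π.comp (O x)) ∧ ∀ u, ∃ u', O x u' = I • O x u)
    (hs : ∀ᶠ x in 𝓝 y, ∀ u v, O x u v = -O x v u)
    (hc : ∀ u v w, fderiv ℝ O y u v w + fderiv ℝ O y v w u + fderiv ℝ O y w u v = 0) :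
    Int0 (π.comp (O y)) (fderiv ℝ (fun x => π.comp (O x)) y) := by
  intro u u' v v' e1 e2
  have h0 := hb.self_of_nhds
  have f1 := lift hπ h0.1.1 h0.2 e1
  have f2 := lift hπ h0.1.1 h0.2 e2
  have h2 : ∀ a b, dd (fderiv ℝ (fun x => π.comp (O x)) y) a b =
      π (-((fderiv ℝ O y).flip a).flip b) := fun a b => by
    rw [dd, fd_comp π hO, fd_comp π hO, ← map_sub]
    refine congrArg π (ContinuousLinearMap.ext fun t => ?_)
    simp only [sub_apply, neg_apply, flip_apply]
    linear_combination hc a b t - skew hO hs b t a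
  simp only [h2]
  rw [← hπ, ← hπ, ← map_sub, ← map_add, ← map_add, ← π.map_zero]
  refine congrArg π (ContinuousLinearMap.ext fun t => ?_)
  obtain ⟨z, hz⟩ := key hπ hO hb f1 t
  have g1 := congrArg (fun L : E →L[ℝ] ℂ => L v) hz
  have g2 := congrArg (fun L : E →L[ℝ] ℂ => L v') hz
  have g3 := congrArg (fun L : E →L[ℝ] ℂ => L z) f2
  simp only [add_apply, sub_apply, neg_apply, flip_apply, smul_apply, smul_eq_mul,
    zero_apply] at g1 g2 g3 ⊢
  linear_combination g2 - I * g1 + g3 - hs.self_of_nhds z v' + I * hs.self_of_nhds z v -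
    fderiv ℝ O y t u v * I_mul_I

end form

end Cnn

open Cnn

theorem nnp_of (hN : NN) : NNP := by
  intro P _ _ _ _ _ E _ _ _ F _ _ _ _ _ θ q₀ hs hb hi
  obtain ⟨W, w1, w2, w3⟩ := hN (P × E) (P × F) (Th θ) q₀
    (hs.mono fun q hq => contDiffAt_const.add ((Bm P E F).contDiff.contDiffAt.comp q hq))
    (by
      rw [show (Th θ q₀ : P × E → P × F) = Prod.map id (θ q₀) from funext (Th_apply θ q₀)]
      exact Function.bijective_id.prodMap hb)
    (by
      filter_upwards [sm_diff hs, hi] with q h1 h2 using int_Th h1 h2.1 h2.2)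
  have h1 : ∀ᶠ q in 𝓝 q₀, Function.Bijective
      ((snd ℝ P F).comp ((fderiv ℝ W q).comp (inr ℝ P E))) := ev_bij
    (continuousAt_const.clm_comp
      ((w1.self_of_nhds.continuousAt_fderiv (by simp)).clm_comp continuousAt_const)) (by
      rw [w2, show ((snd ℝ P F).comp ((Th θ q₀).comp (inr ℝ P E)) : E → F) = θ q₀ from
        funext fun u => congrArg Prod.snd (Th_apply θ q₀ (0, u))]
      exact hb)
  refine ⟨fun q => (W q).2, w1.mono fun q hq => contDiffAt_snd.comp q hq, ?_⟩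
  filter_upwards [sm_diff w1, w3, h1] with q k1 k2 k3
  have k4 : fderiv ℝ (fun q => (W q).2) q = (snd ℝ P F).comp (fderiv ℝ W q) :=
    k1.hasFDerivAt.snd.fderiv
  rw [Dy_eq k1.snd, hol_iff k1.snd, k4]
  refine ⟨k3, fun u u' e => congrArg Prod.snd (k2 (0, u) (0, u') ?_),
    fun a => congrArg Prod.snd (k2 (a, 0) (I • a, 0) ?_)⟩
  · rw [Th_apply, Th_apply, Prod.smul_mk, smul_zero, e]
  · rw [Th_apply, Th_apply, Prod.smul_mk, map_zero, smul_zero]

theorem cnn_of (hN : NNP) : CNN := by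
  intro P _ _ _ _ _ E _ _ _ _ _ Ω q₀ hs hn hi
  have hi' : ∀ᶠ q in 𝓝 q₀, ∀ u, ∃ u', Ω q u' = I • Ω q u := hi.mono fun q hq u =>
    (hq.2.2.1 u).imp fun u' h => ContinuousLinearMap.ext h
  obtain ⟨π, hπ, hb⟩ := ex_proj (Ω q₀) ((injective_iff_map_eq_zero _).2 fun u h =>
    hn u fun v => by rw [h, zero_apply]) hi'.self_of_nhds
  have h1 : ∀ᶠ q in 𝓝 q₀, Function.Bijective (π.comp (Ω q)) :=
    ev_bij (continuousAt_const.clm_comp hs.self_of_nhds.continuousAt) hb
  obtain ⟨W, w1, w2⟩ := hN P E E (fun q => π.comp (Ω q)) q₀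
    (hs.mono fun q hq => contDiffAt_const.clm_comp hq) hb (by
      filter_upwards [sm_diff hs, hi, (h1.and hi').eventually_nhds,
        (hi.mono fun q hq => hq.1).eventually_nhds] with q k1 k2 k3 k4
      have c : ContinuousAt (fun y : E => (q.1, y)) q.2 := by fun_prop
      refine ⟨int0 (O := fun y => Ω (q.1, y)) hπ (has_snd k1).differentiableAt (c.eventually k3)
        (c.eventually k4) k2.2.1, fun u => ?_⟩
      have d1 := has_app k1 u
      have d2 : HasFDerivAt (fun q => π (Ω q u)) (π.comp ((fderiv ℝ Ω q).flip u)) q :=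
        π.hasFDerivAt.comp q d1
      refine (hol_iff d2.differentiableAt).2 fun a => ?_
      rw [d2.fderiv, comp_apply, comp_apply, ← hπ]
      refine congrArg π (ContinuousLinearMap.ext fun v => ?_)
      have d3 := has_app d1.differentiableAt v
      have := (hol_iff d3.differentiableAt).1 (k2.2.2.2 u v) a
      rwa [d3.fderiv, d1.fderiv] at this)
  refine ⟨W, w1, w2.mono fun q hq => ⟨hq.1, fun u u' e => hq.2.1 u u' ?_, hq.2.2⟩⟩
  rw [comp_apply, comp_apply, ← hπ]
  exact congrArg π (ContinuousLinearMap.ext e)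

end Vale.Agent.P301Z.An
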