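import Vale.Agent.P301Z.An.Sk
import Mathlib.Analysis.Calculus.ContDiff.RCLike
import Mathlib.Analysis.Calculus.ContDiff.CPolynomial

/-!
# P301Z, block ANA: composition of Hoelder jets with `x ↦ x + χ x • τ`
-/

open scoped ContDiff Topology NNReal
open Set Filter Metric
open Vale.Agent.P272.K Vale.Agent.P272.K.LIN

noncomputable section

set_option maxSynthPendingDepth 3
set_option linter.unusedSectionVars false

namespace Vale.Agent.P301Z.An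
namespace Comp

variable {E V W : Type} [NormedAddCommGroup E] [NormedSpace ℝ E] [NormedAddCommGroup V]
  [NormedSpace ℝ V] [NormedAddCommGroup W] [NormedSpace ℝ W]

lemma cd_prod {G K L M : Type} [NormedAddCommGroup G] [NormedSpace ℝ G]
    [NormedAddCommGroup K] [NormedSpace ℝ K] [NormedAddCommGroup L] [NormedSpace ℝ L]
    [NormedAddCommGroup M] [NormedSpace ℝ M] {f : G → K →L[ℝ] L} {g : G → K →L[ℝ] M}
    (hf : ContDiff ℝ ω f) (hg : ContDiff ℝ ω g) : ContDiff ℝ ω fun x => (f x).prod (g x) := by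
  have h1 : (fun x => (f x).prod (g x)) = fun x =>
      (ContinuousLinearMap.inl ℝ L M).comp (f x) + (ContinuousLinearMap.inr ℝ L M).comp (g x) := by
    funext x
    ext v <;> simp
  rw [h1]
  exact (contDiff_const.clm_comp hf).add (contDiff_const.clm_comp hg)

/-- first derivatives -/
def p1 (E V : Type) [NormedAddCommGroup E] [NormedSpace ℝ E] [NormedAddCommGroup V]
    [NormedSpace ℝ V] : Jt E V →L[ℝ] (E →L[ℝ] V) :=
  (ContinuousLinearMap.fst ℝ _ _).comp (ContinuousLinearMap.snd ℝ V _)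

/-- second derivatives -/
def p2 (E V : Type) [NormedAddCommGroup E] [NormedSpace ℝ E] [NormedAddCommGroup V]
    [NormedSpace ℝ V] : Jt E V →L[ℝ] (E →L[ℝ] E →L[ℝ] V) :=
  (ContinuousLinearMap.snd ℝ _ _).comp (ContinuousLinearMap.snd ℝ V _)

/-- the chain rule on jets -/
def JT (V : Type) [NormedAddCommGroup V] [NormedSpace ℝ V] (q : Ch E) : Jt E V →L[ℝ] Jt E V :=
  (ContinuousLinearMap.fst ℝ V _).prod
    ((((ContinuousLinearMap.compL ℝ E E V).flip q.1).comp (p1 E V)).prod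
    ((((ContinuousLinearMap.compL ℝ E (E →L[ℝ] E) (E →L[ℝ] V)).flip q.2).comp
        (ContinuousLinearMap.compL ℝ E E V)).comp (p1 E V) +
      ((ContinuousLinearMap.compL ℝ E (E →L[ℝ] V) (E →L[ℝ] V)
        ((ContinuousLinearMap.compL ℝ E E V).flip q.1)).comp
        ((ContinuousLinearMap.compL ℝ E E (E →L[ℝ] V)).flip q.1)).comp (p2 E V)))

lemma JT_22 (q : Ch E) (p : Jt E V) (u v : E) :
    (JT V q p).2.2 u v = p.2.1 (q.2 u v) + p.2.2 (q.1 u) (q.1 v) := rfl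

lemma cd_JT : ContDiff ℝ ω (JT V : Ch E → _) := by
  unfold JT
  have h1 : ContDiff ℝ ω fun q : Ch E => (ContinuousLinearMap.compL ℝ E E V).flip q.1 :=
    (ContinuousLinearMap.contDiff _).comp contDiff_fst
  have h2 : ContDiff ℝ ω fun q : Ch E =>
      (ContinuousLinearMap.compL ℝ E (E →L[ℝ] E) (E →L[ℝ] V)).flip q.2 :=
    (ContinuousLinearMap.contDiff _).comp contDiff_snd
  have h3 : ContDiff ℝ ω fun q : Ch E =>
      (ContinuousLinearMap.compL ℝ E E (E →L[ℝ] V)).flip q.1 :=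
    (ContinuousLinearMap.contDiff _).comp contDiff_fst
  have h4 : ContDiff ℝ ω fun q : Ch E =>
      ContinuousLinearMap.compL ℝ E (E →L[ℝ] V) (E →L[ℝ] V)
        ((ContinuousLinearMap.compL ℝ E E V).flip q.1) :=
    (ContinuousLinearMap.contDiff _).comp h1
  have h5 := h1.clm_comp (contDiff_const (c := p1 E V))
  have h6 := (h2.clm_comp (contDiff_const (c := ContinuousLinearMap.compL ℝ E E V))).clm_comp
    (contDiff_const (c := p1 E V))
  have h7 := (h4.clm_comp h3).clm_comp (contDiff_const (c := p2 E V))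
  exact cd_prod contDiff_const (cd_prod h5 (h6.add h7))

/-- the chain rule for the perturbation `d` of the identity -/
def T (V : Type) [NormedAddCommGroup V] [NormedSpace ℝ V] (d : Ch E) : Jt E V →L[ℝ] Jt E V :=
  JT V (ContinuousLinearMap.id ℝ E + d.1, d.2)

lemma cd_T : ContDiff ℝ ω (T V : Ch E → _) :=
  cd_JT.comp ((contDiff_const.add contDiff_fst).prodMk contDiff_snd)

lemma T_zero : T V (0 : Ch E) = 1 := by
  refine ContinuousLinearMap.ext fun p => Prod.ext rfl (Prod.ext ?_ ?_)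
  · ext u
    show p.2.1 (u + 0) = p.2.1 u
    rw [add_zero]
  · ext u v
    show p.2.1 0 + p.2.2 (u + 0) (v + 0) = p.2.2 u v
    rw [map_zero, zero_add, add_zero, add_zero]

lemma isJet_T {h : E → Jt E V} (hh : IsJet h) {Φ : E → E} {d : E → Ch E}
    (h1 : ∀ x, HasFDerivAt Φ (ContinuousLinearMap.id ℝ E + (d x).1) x)
    (h2 : ∀ x, HasFDerivAt (fun y => (d y).1) (d x).2 x) : IsJet fun x => T V (d x) (h (Φ x)) := by
  intro x
  refine ⟨(hh (Φ x)).1.comp x (h1 x), ?_⟩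
  have h3 := ((hh (Φ x)).2.comp x (h1 x)).clm_comp
    ((h2 x).const_add (ContinuousLinearMap.id ℝ E))
  refine h3.congr_fderiv ?_
  ext u v
  show _ = (JT V _ _).2.2 u v
  rw [JT_22]
  simp

lemma wt_le {x y : E} {K A s : ℝ} (hK : 0 ≤ K) (hA : 0 ≤ A) (h1 : s ≤ K * ‖x - y‖) (h2 : s ≤ A) :
    s ≤ (K + A) * wt E x y := by
  rw [coe_wt]
  have h0 : 0 ≤ ‖x - y‖ ^ (1 / 2 : ℝ) := by positivity
  rcases le_total ‖x - y‖ 1 with h | h
  · have h3 : ‖x - y‖ ≤ ‖x - y‖ ^ (1 / 2 : ℝ) :=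
      Real.self_le_rpow_of_le_one (norm_nonneg _) h (by norm_num)
    nlinarith [mul_le_mul_of_nonneg_left h3 hK, mul_nonneg hA h0]
  · have h3 : 1 ≤ ‖x - y‖ ^ (1 / 2 : ℝ) := Real.one_le_rpow h (by norm_num)
    nlinarith [mul_le_mul_of_nonneg_left h3 hA, mul_nonneg hK h0]

lemma toHol {f : E → W} (hf : ContDiff ℝ ∞ f) (hc : HasCompactSupport f) :
    ∃ g : H E W, ∀ x, g x = f x := by
  obtain ⟨A, hA⟩ := hf.continuous.bounded_above_of_compact_support hc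
  obtain ⟨K, hK⟩ := hf.lipschitzWith_of_hasCompactSupport hc (by simp)
  have hA0 : 0 ≤ A := (norm_nonneg _).trans (hA 0)
  refine ⟨⟨f, ⟨A, hA⟩, ⟨K + (A + A), fun x y => wt_le K.2 (by positivity) ?_ ?_⟩⟩, fun _ => rfl⟩
  · simpa only [dist_eq_norm] using hK.dist_le_mul x y
  · exact (norm_sub_le _ _).trans (add_le_add (hA x) (hA y))

lemma comp_hol {Φ : E → E} (hΦ : ∀ x y, ‖Φ x - Φ y‖ ≤ 2 * ‖x - y‖) (a : H E W) :
    ∃ a' : H E W, ‖a'‖ ≤ 3 * ‖a‖ ∧ ∀ x, a' x = a (Φ x) := by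
  have h1 : ∀ x y, ‖a (Φ x) - a (Φ y)‖ ≤ 2 * ‖a‖ * wt E x y := by
    intro x y
    refine (Hol.norm_sub_le' a _ _).trans ?_
    rw [coe_wt, coe_wt, mul_comm 2, mul_assoc]
    refine mul_le_mul_of_nonneg_left ?_ (norm_nonneg _)
    refine (Real.rpow_le_rpow (norm_nonneg _) (hΦ x y) (by norm_num)).trans ?_
    rw [Real.mul_rpow (by norm_num) (norm_nonneg _)]
    refine mul_le_mul_of_nonneg_right ?_ (by positivity)
    exact Real.rpow_le_self_of_one_le (by norm_num) (by norm_num)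
  refine ⟨⟨fun x => a (Φ x), ⟨‖a‖, fun x => Hol.norm_apply_le a _⟩, ⟨_, h1⟩⟩, ?_, fun _ => rfl⟩
  rw [show 3 * ‖a‖ = ‖a‖ + 2 * ‖a‖ by ring]
  exact Hol.norm_le_of (norm_nonneg a) (by positivity) (fun x => Hol.norm_apply_le a (Φ x)) h1

lemma nem {U : Type} [NormedAddCommGroup U] {F : W → U} {K : ℝ≥0} {δ : ℝ} (hδ : δ ≤ 1)
    (hF : LipschitzOnWith K F (ball 0 δ)) (d : H E W) (hd : ‖d‖ < δ) :
    ∃ M : H E U, ‖M‖ ≤ ‖F 0‖ + K + K ∧ ∀ x, M x = F (d x) := by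
  have hm : ∀ x, d x ∈ ball (0 : W) δ := fun x =>
    mem_ball_zero_iff.2 ((Hol.norm_apply_le d x).trans_lt hd)
  have h0 : ∀ x, ‖F (d x)‖ ≤ ‖F 0‖ + K := by
    intro x
    have h1 := hF.dist_le_mul _ (hm x) 0 (mem_ball_self ((norm_nonneg _).trans_lt hd))
    rw [dist_eq_norm, dist_zero_right] at h1
    have h2 : ‖d x‖ ≤ 1 := (Hol.norm_apply_le d x).trans (hd.le.trans hδ)
    have h3 := norm_le_insert' (F (d x)) (F 0)
    have h4 : (K : ℝ) * ‖d x‖ ≤ K := mul_le_of_le_one_right K.2 h2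
    linarith
  have h1 : ∀ x y, ‖F (d x) - F (d y)‖ ≤ K * wt E x y := by
    intro x y
    have h2 := hF.dist_le_mul _ (hm x) _ (hm y)
    rw [dist_eq_norm, dist_eq_norm] at h2
    refine h2.trans (mul_le_mul_of_nonneg_left ((Hol.norm_sub_le' d x y).trans ?_) K.2)
    exact mul_le_of_le_one_left (NNReal.coe_nonneg _) (hd.le.trans hδ)
  exact ⟨⟨fun x => F (d x), ⟨_, h0⟩, ⟨_, h1⟩⟩, Hol.norm_le_of (by positivity) K.2 h0 h1,
    fun _ => rfl⟩

/-- multiplication by the vector `τ` -/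
def Lm (τ : E) : (E →L[ℝ] ℝ) →L[ℝ] (E →L[ℝ] E) := (ContinuousLinearMap.smulRightL ℝ E E).flip τ

/-- the derivatives of `χ • τ` -/
def Dl (g : H E ((E →L[ℝ] ℝ) × (E →L[ℝ] E →L[ℝ] ℝ))) : E →ₗ[ℝ] H E (Ch E) where
  toFun τ := Hol.map ((Lm τ).prodMap
    (ContinuousLinearMap.compL ℝ E (E →L[ℝ] ℝ) (E →L[ℝ] E) (Lm τ))) g
  map_add' σ τ := by
    refine Hol.ext fun x => Prod.ext ?_ ?_
    · ext u
      exact smul_add ((g x).1 u) σ τ
    · ext u v
      exact smul_add ((g x).2 u v) σ τ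
  map_smul' c τ := by
    refine Hol.ext fun x => Prod.ext ?_ ?_
    · ext u
      exact smul_comm ((g x).1 u) c τ
    · ext u v
      exact smul_comm ((g x).2 u v) c τ

lemma Dl_apply (g : H E ((E →L[ℝ] ℝ) × (E →L[ℝ] E →L[ℝ] ℝ))) (τ x : E) :
    Dl g τ x = (Lm τ (g x).1, (Lm τ).comp (g x).2) := rfl

lemma exD [FiniteDimensional ℝ E] {χ : E → ℝ} (hχ : ContDiff ℝ ∞ χ) (hc : HasCompactSupport χ) :
    ∃ D : E →L[ℝ] H E (Ch E), ∀ τ x,
      D τ x = (Lm τ (fderiv ℝ χ x), (Lm τ).comp (fderiv ℝ (fderiv ℝ χ) x)) := by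
  have hχ1 : ContDiff ℝ ∞ (fderiv ℝ χ) := hχ.fderiv_right le_rfl
  have hχ2 : ContDiff ℝ ∞ (fderiv ℝ (fderiv ℝ χ)) := hχ1.fderiv_right le_rfl
  obtain ⟨g1, hg1⟩ := toHol hχ1 (hc.fderiv ℝ)
  obtain ⟨g2, hg2⟩ := toHol hχ2 ((hc.fderiv ℝ).fderiv ℝ)
  obtain ⟨g, hg⟩ : ∃ g : H E ((E →L[ℝ] ℝ) × (E →L[ℝ] E →L[ℝ] ℝ)),
      ∀ x, g x = (fderiv ℝ χ x, fderiv ℝ (fderiv ℝ χ) x) :=
    ⟨Hol.map (ContinuousLinearMap.inl ℝ _ _) g1 + Hol.map (ContinuousLinearMap.inr ℝ _ _) g2,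
      fun x => by simp [hg1, hg2]⟩
  refine ⟨LinearMap.toContinuousLinearMap (Dl g), fun τ x => ?_⟩
  show Dl g τ x = _
  rw [Dl_apply, hg]

lemma cd_inv (W : Type) [NormedAddCommGroup W] [NormedSpace ℝ W] [CompleteSpace W] :
    ContDiffAt ℝ ω (Ring.inverse : (W →L[ℝ] W) → _) 1 := contDiffAt_ringInverse ℝ 1

lemma unit_nhds (W : Type) [NormedAddCommGroup W] [NormedSpace ℝ W] [CompleteSpace W] :
    {M : W →L[ℝ] W | IsUnit M} ∈ 𝓝 1 := Units.isOpen.mem_nhds isUnit_one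

lemma an_JI [CompleteSpace V] :
    AnalyticAt ℝ (fun q : Ch E × Jt E V => Ring.inverse (T V q.1) q.2) 0 := by
  have h1 : ContDiffAt ℝ ω (Ring.inverse : (Jt E V →L[ℝ] Jt E V) → _) (T V (0 : Ch E)) := by
    rw [T_zero]
    exact cd_inv _
  have h2 : ContDiffAt ℝ ω (fun q : Ch E × Jt E V => Ring.inverse (T V q.1)) 0 :=
    (h1.comp 0 cd_T.contDiffAt).comp (0 : Ch E × Jt E V) contDiffAt_fst
  exact (h2.clm_apply contDiffAt_snd).analyticAt

lemma small (E V : Type) [NormedAddCommGroup E] [NormedSpace ℝ E] [NormedAddCommGroup V]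
    [NormedSpace ℝ V] [CompleteSpace V] : ∃ (K : ℝ≥0) (δ : ℝ), 0 < δ ∧ δ ≤ 1 ∧
    LipschitzOnWith K (T V) (ball (0 : Ch E) δ) ∧ ∀ d : Ch E, ‖d‖ < δ → IsUnit (T V d) := by
  have hT : ContDiffAt ℝ ω (T V : Ch E → _) 0 := cd_T.contDiffAt
  obtain ⟨K, t, ht, hK⟩ := (hT.of_le (m := 1) le_top).exists_lipschitzOnWith
  have hu : ∀ᶠ d in 𝓝 (0 : Ch E), IsUnit (T V d) := by
    have h1 := unit_nhds (Jt E V)
    rw [← T_zero] at h1
    exact hT.continuousAt.eventually h1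
  obtain ⟨δ, hδ, hb⟩ := Metric.mem_nhds_iff.1 (inter_mem ht hu)
  exact ⟨K, min δ 1, lt_min hδ one_pos, min_le_right _ _,
    hK.mono fun d hd => (hb (ball_subset_ball (min_le_left _ _) hd)).1,
    fun d hd => (hb (mem_ball_zero_iff.2 (hd.trans_le (min_le_left _ _)))).2⟩

lemma lip {χ : E → ℝ} {K : ℝ≥0} (hK : LipschitzWith K χ) {τ : E} (h2 : K * ‖τ‖ < 1) (x y : E) :
    ‖(x + χ x • τ) - (y + χ y • τ)‖ ≤ 2 * ‖x - y‖ := by
  have h3 := hK.dist_le_mul x y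
  rw [dist_eq_norm, dist_eq_norm] at h3
  rw [add_sub_add_comm, ← sub_smul]
  refine (norm_add_le _ _).trans ?_
  rw [norm_smul]
  nlinarith [mul_le_mul_of_nonneg_right h3 (norm_nonneg τ),
    mul_le_mul_of_nonneg_right h2.le (norm_nonneg (x - y))]

lemma app {U : Type} [NormedAddCommGroup U] [NormedSpace ℝ U] (M : H E (W →L[ℝ] U)) (a : H E W) :
    ∃ b : H E U, ‖b‖ ≤ ‖M‖ * ‖a‖ ∧ ∀ x, b x = M x (a x) := by
  refine ⟨Hol.bil (ContinuousLinearMap.id ℝ (W →L[ℝ] U)) M a, (Hol.norm_bil_le _ _ _).trans ?_,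
    fun _ => rfl⟩
  have h8 := ContinuousLinearMap.norm_id_le (𝕜 := ℝ) (E := W →L[ℝ] U)
  exact mul_le_mul_of_nonneg_right (mul_le_of_le_one_left (norm_nonneg _) h8) (norm_nonneg _)

lemma main {K : ℝ≥0} {δ : ℝ} (hδ : δ ≤ 1) (hK : LipschitzOnWith K (T V) (ball (0 : Ch E) δ))
    {Φ : E → E} (hΦ : ∀ x y, ‖Φ x - Φ y‖ ≤ 2 * ‖x - y‖) (d : H E (Ch E)) (hd : ‖d‖ < δ)
    (h : H E (Jt E V)) : ∃ h' : H E (Jt E V), ‖h'‖ ≤ 3 * (‖T V (0 : Ch E)‖ + K + K + 1) * ‖h‖ ∧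
      ∀ x, h' x = T V (d x) (h (Φ x)) := by
  obtain ⟨a', h3, h4⟩ := comp_hol hΦ h
  obtain ⟨M, h5, h6⟩ := nem hδ hK d hd
  obtain ⟨b, h7, h8⟩ := app M a'
  refine ⟨b, h7.trans ?_, fun x => by rw [h8, h6, h4]⟩
  have h9 : ‖M‖ ≤ ‖T V (0 : Ch E)‖ + K + K + 1 := h5.trans (le_add_of_nonneg_right zero_le_one)
  exact (mul_le_mul h9 h3 (norm_nonneg _) ((norm_nonneg _).trans h9)).trans (le_of_eq (by ring))

lemma inv_app {M : W →L[ℝ] W} (h : IsUnit M) (j : W) : j = Ring.inverse M (M j) := by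
  show _ = (Ring.inverse M * M) j
  rw [Ring.inverse_mul_cancel _ h]
  rfl

end Comp

open Vale.Agent.P301Z.An.Comp in
/-- **COMP** -/
theorem comp : COMP := by
  intro E _ _ _ V _ _ _ P _ _ _ χ hχ hc
  have : CompleteSpace V := FiniteDimensional.complete ℝ V
  have hχ1 : ContDiff ℝ ∞ (fderiv ℝ χ) := hχ.fderiv_right le_rfl
  obtain ⟨D, hD⟩ := exD hχ hc
  obtain ⟨K, δ, hδ, hδ1, hK, hu⟩ := small E V
  obtain ⟨Kχ, hKχ⟩ := hχ.lipschitzWith_of_hasCompactSupport hc (by simp)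
  refine ⟨fun q => Ring.inverse (T V q.1) q.2, D, 3 * (‖T V (0 : Ch E)‖ + K + K + 1),
    by positivity, an_JI, fun j => ?_, fun τ x hx => ?_, ?_⟩
  · show Ring.inverse (T V (0 : Ch E)) j = j
    rw [T_zero, Ring.inverse_one]
    rfl
  · have h1 : x ∉ tsupport (fderiv ℝ χ) := fun h => hx (tsupport_fderiv_subset ℝ h)
    have h2 : x ∉ tsupport (fderiv ℝ (fderiv ℝ χ)) := fun h => h1 (tsupport_fderiv_subset ℝ h)
    rw [hD, image_eq_zero_of_notMem_tsupport h1, image_eq_zero_of_notMem_tsupport h2, map_zero,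
      ContinuousLinearMap.comp_zero]
    rfl
  have e1 : ∀ᶠ τ in 𝓝 (0 : E), ‖D τ‖ < δ := by
    have h1 : ContinuousAt (fun τ => ‖D τ‖) 0 := D.continuous.norm.continuousAt
    refine h1.eventually (gt_mem_nhds ?_)
    show ‖D 0‖ < δ
    rwa [map_zero, norm_zero]
  have e2 : ∀ᶠ τ in 𝓝 (0 : E), Kχ * ‖τ‖ < 1 := by
    have h1 : ContinuousAt (fun τ : E => (Kχ : ℝ) * ‖τ‖) 0 := by fun_prop
    refine h1.eventually (gt_mem_nhds ?_)
    simp
  filter_upwards [e1, e2] with τ h1 h2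
  have hΦ := lip hKχ h2
  have hC : (1 : ℝ) ≤ ‖T V (0 : Ch E)‖ + K + K + 1 := le_add_of_nonneg_left (by positivity)
  refine ⟨fun a => ?_, fun h hh => ?_⟩
  · obtain ⟨a', h3, h4⟩ := comp_hol hΦ a
    exact ⟨a', h3.trans (mul_le_mul_of_nonneg_right (by linarith) (norm_nonneg _)), h4⟩
  obtain ⟨h', h3, h4⟩ := main hδ1 hK hΦ (D τ) h1 h
  refine ⟨h', ?_, h3, fun x => ?_⟩
  · rw [show h'.toFun = _ from funext h4]
    refine isJet_T hh (fun x => ?_) fun x => ?_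
    · rw [hD]
      exact (hasFDerivAt_id x).add ((hχ.differentiable (by simp) x).hasFDerivAt.smul_const τ)
    · have e : (fun y => (D τ y).1) = fun y => Lm τ (fderiv ℝ χ y) := funext fun y => by rw [hD]
      rw [e, hD]
      exact (Lm τ).hasFDerivAt.comp x (hχ1.differentiable (by simp) x).hasFDerivAt
  · rw [h4]
    exact ⟨rfl, inv_app (hu _ ((Hol.norm_apply_le _ x).trans_lt h1)) _⟩

end Vale.Agent.P301Z.An
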