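import Vale.Agent.P301Z.An.Sk
import Vale.Agent.P290Z.K.Nem.Core

/-!
# P301Z, block ANA: cut off functions in Hoelder spaces (CUT, PAR)
-/

open scoped ContDiff Topology NNReal
open Set Filter Metric
open Vale.Agent.P272.K Vale.Agent.P272.K.LIN

noncomputable section

namespace Vale.Agent.P301Z.An

namespace Cut

variable {E V : Type} [NormedAddCommGroup E] [NormedAddCommGroup V]

/-- bounded Lipschitz functions are Hoelder -/
theorem hol_of {f : E → V} {A L B : ℝ} (hB : 0 ≤ B) (h : 2 * A * L ≤ B ^ 2) (h0 : ∀ x, ‖f x‖ ≤ A)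
    (h1 : ∀ x y, ‖f x - f y‖ ≤ L * ‖x - y‖) (x y : E) : ‖f x - f y‖ ≤ B * wt E x y := by
  have hA : 0 ≤ A := (norm_nonneg _).trans (h0 x)
  have h2 : ‖f x - f y‖ ≤ 2 * A := (norm_sub_le _ _).trans (by linarith [h0 x, h0 y])
  have h3 : ‖f x - f y‖ ^ 2 ≤ B ^ 2 * ‖x - y‖ :=
    calc ‖f x - f y‖ ^ 2 = ‖f x - f y‖ * ‖f x - f y‖ := sq _
      _ ≤ 2 * A * (L * ‖x - y‖) := mul_le_mul h2 (h1 x y) (norm_nonneg _) (by positivity)
      _ = 2 * A * L * ‖x - y‖ := by ring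
      _ ≤ B ^ 2 * ‖x - y‖ := mul_le_mul_of_nonneg_right h (norm_nonneg _)
  have e : (wt E x y : ℝ) = √‖x - y‖ := by
    rw [Real.sqrt_eq_rpow]
    simp [wt]
  rw [e]
  refine le_of_sq_le_sq (hb := by positivity) ?_
  rwa [mul_pow, Real.sq_sqrt (norm_nonneg _)]

/-- a bounded Lipschitz function as an element of the Hoelder space -/
def ofLip (f : E → V) (A L : ℝ) (h0 : ∀ x, ‖f x‖ ≤ A) (h1 : ∀ x y, ‖f x - f y‖ ≤ L * ‖x - y‖) :
    H E V :=
  ⟨f, ⟨A, h0⟩, ⟨√(2 * A * L), hol_of (Real.sqrt_nonneg _)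
    (by rw [Real.sq_sqrt']; exact le_max_left _ _) h0 h1⟩⟩

/-- the cut off function -/
def kap (r : ℝ) (x : E) : ℝ := max 0 (min 1 (2 - ‖x‖ / r))

theorem kap_norm (r : ℝ) (x : E) : ‖kap r x‖ ≤ 1 := by
  rw [Real.norm_eq_abs, abs_of_nonneg (le_max_left _ _)]
  exact max_le zero_le_one (min_le_left _ _)

theorem kap_one {r : ℝ} (hr : 0 < r) {x : E} (hx : ‖x‖ ≤ r) : kap r x = 1 := by
  have h : ‖x‖ / r ≤ 1 := (div_le_one hr).2 hx
  rw [kap, min_eq_left (by linarith), max_eq_right zero_le_one]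

theorem kap_zero {r : ℝ} (hr : 0 < r) {x : E} (hx : 2 * r ≤ ‖x‖) : kap r x = 0 := by
  have h : 2 ≤ ‖x‖ / r := (le_div_iff₀ hr).2 hx
  exact max_eq_left ((min_le_right _ _).trans (by linarith))

theorem kap_lip {r : ℝ} (hr : 0 < r) (x y : E) : ‖kap r x - kap r y‖ ≤ r⁻¹ * ‖x - y‖ := by
  have h1 : |(2 - ‖x‖ / r) - (2 - ‖y‖ / r)| ≤ r⁻¹ * ‖x - y‖ := by
    rw [show (2 - ‖x‖ / r) - (2 - ‖y‖ / r) = r⁻¹ * (‖y‖ - ‖x‖) by ring, abs_mul,
      abs_of_pos (inv_pos.2 hr), norm_sub_rev]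
    exact mul_le_mul_of_nonneg_left (abs_norm_sub_norm_le y x) (inv_pos.2 hr).le
  rw [Real.norm_eq_abs, kap, kap]
  refine (abs_max_sub_max_le_max _ _ _ _).trans (max_le (by simp; positivity) ?_)
  exact (abs_min_sub_min_le_max _ _ _ _).trans (max_le (by simp; positivity) h1)

/-- the cut off function in the Hoelder space -/
def kapH (E : Type) [NormedAddCommGroup E] {r : ℝ} (hr : 0 < r) : H E ℝ :=
  ofLip (kap r) 1 r⁻¹ (kap_norm r) (kap_lip hr)

variable [NormedSpace ℝ V]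

section
variable {r L : ℝ} {v : E → V} {x₁ : E} (hr : 0 < r) (hL : 0 ≤ L) (hx : ‖x₁‖ ≤ r) (h0 : v x₁ = 0)
  (hv : ∀ x y, ‖v x - v y‖ ≤ L * ‖x - y‖)
include hL hx h0 hv

omit [NormedSpace ℝ V] in
theorem near_le {y : E} (hy : ‖y‖ ≤ 2 * r) : ‖v y‖ ≤ 3 * r * L := by
  have h1 := hv y x₁
  rw [h0, sub_zero] at h1
  have h2 : ‖y - x₁‖ ≤ 3 * r := (norm_sub_le _ _).trans (by linarith)
  exact h1.trans ((mul_le_mul_of_nonneg_left h2 hL).trans_eq (mul_comm _ _))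

include hr

theorem cut_bd (x : E) : ‖kap r x • v x‖ ≤ 3 * r * L := by
  rcases le_total ‖x‖ (2 * r) with h | h
  · rw [norm_smul]
    exact (mul_le_of_le_one_left (norm_nonneg _) (kap_norm r x)).trans (near_le hL hx h0 hv h)
  · rw [kap_zero hr h, zero_smul, norm_zero]
    positivity

theorem cut_lip (x y : E) : ‖kap r x • v x - kap r y • v y‖ ≤ 4 * L * ‖x - y‖ := by
  have key : ∀ x y : E, ‖y‖ ≤ 2 * r → ‖kap r x • v x - kap r y • v y‖ ≤ 4 * L * ‖x - y‖ := by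
    intro x y hy
    have e : kap r x • v x - kap r y • v y =
        kap r x • (v x - v y) + (kap r x - kap r y) • v y := by
      rw [smul_sub, sub_smul]
      abel
    have h1 : ‖kap r x • (v x - v y)‖ ≤ L * ‖x - y‖ := by
      rw [norm_smul]
      exact (mul_le_of_le_one_left (norm_nonneg _) (kap_norm r x)).trans (hv x y)
    have h2 : ‖(kap r x - kap r y) • v y‖ ≤ r⁻¹ * ‖x - y‖ * (3 * r * L) := by
      rw [norm_smul]
      exact mul_le_mul (kap_lip hr x y) (near_le hL hx h0 hv hy) (norm_nonneg _) (by positivity)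
    have h3 : r⁻¹ * ‖x - y‖ * (3 * r * L) = 3 * L * ‖x - y‖ := by field_simp
    rw [e]
    exact (norm_add_le _ _).trans (by linarith)
  rcases le_total ‖y‖ (2 * r) with h | h
  · exact key x y h
  rcases le_total ‖x‖ (2 * r) with h' | h'
  · rw [norm_sub_rev, norm_sub_rev x]
    exact key y x h'
  · rw [kap_zero hr h, kap_zero hr h', zero_smul, zero_smul, sub_zero, norm_zero]
    positivity

end

/-- constants -/
def constL {Y : Type} (w : Y → Y → ℝ≥0) (V : Type) [NormedAddCommGroup V] [NormedSpace ℝ V] :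
    V →L[ℝ] Hol w V :=
  LinearMap.mkContinuous
    { toFun := Hol.const
      map_add' := fun _ _ => rfl
      map_smul' := fun _ _ => rfl } 1 fun c => by
    rw [one_mul]
    exact Hol.norm_const_le c

theorem constL_apply {Y : Type} (w : Y → Y → ℝ≥0) (c : V) (x : Y) : constL w V c x = c := rfl

theorem jet_lip [NormedSpace ℝ E] {h : H E (Jt E V)} (hh : IsJet h) (x y : E) :
    ‖(h x).1 - (h y).1‖ ≤ ‖h‖ * ‖x - y‖ :=
  (convex_univ (𝕜 := ℝ)).norm_image_sub_le_of_norm_hasFDerivWithin_le (f := fun y => (h y).1)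
    (fun z _ => (hh z).1.hasFDerivWithinAt)
    (fun z _ => (norm_fst_le _).trans ((norm_snd_le _).trans (h.norm_apply_le z)))
    (mem_univ y) (mem_univ x)

end Cut

open Cut

/-- **CUT** -/
theorem cut : CUT := by
  intro E _ _ _ _ V _ _ _ η hη
  obtain ⟨r, hr, h1, h2⟩ : ∃ r : ℝ, 0 < r ∧ r ≤ η / 6 ∧ r ≤ η ^ 2 / 96 :=
    ⟨min (η / 6) (η ^ 2 / 96), by positivity, min_le_left _ _, min_le_right _ _⟩
  obtain ⟨x₁, hx⟩ := exists_norm_eq E hr.le
  refine ⟨r, x₁, kap r, (Hol.bilL (ContinuousLinearMap.lsmul ℝ ℝ) (kapH E hr)).comp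
    (Hol.map (ContinuousLinearMap.fst ℝ _ _) - (constL _ V).comp
      ((ContinuousLinearMap.fst ℝ _ _).comp (Hol.evalL x₁))), hr, by linarith,
    fun x hx' => kap_one hr (mem_ball_zero_iff.1 hx').le, fun _ _ => rfl, fun h hh => ?_⟩
  have hn := norm_nonneg h
  have hv : ∀ x y, ‖((h x).1 - (h x₁).1) - ((h y).1 - (h x₁).1)‖ ≤ ‖h‖ * ‖x - y‖ := fun x y => by
    rw [sub_sub_sub_cancel_right]
    exact jet_lip hh x y
  have b0 := cut_bd (v := fun x => (h x).1 - (h x₁).1) hr hn hx.le (sub_self _) hv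
  have b1 := cut_lip (v := fun x => (h x).1 - (h x₁).1) hr hn hx.le (sub_self _) hv
  have b2 : 2 * (3 * r * ‖h‖) * (4 * ‖h‖) ≤ (η / 2 * ‖h‖) ^ 2 := by
    nlinarith [mul_le_mul_of_nonneg_right h2 (sq_nonneg ‖h‖)]
  refine (Hol.norm_le_of (by positivity) (by positivity) b0
    (hol_of (by positivity) b2 b0 b1)).trans ?_
  nlinarith [mul_le_mul_of_nonneg_right h1 hn]

/-- **PAR** -/
theorem par : PAR := by
  intro Q _ _ _ E _ _ _ W _ _ _ Φ R hΦ h0
  obtain ⟨r, hr, hR⟩ : ∃ r : ℝ, 0 < r ∧ R ≤ r := ⟨max R 1, by positivity, le_max_left _ _⟩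
  have h2 : 0 < 2 * r := by positivity
  have hz : ‖(0 : E)‖ ≤ 2 * r := by rw [norm_zero]; exact h2.le
  have hv : ∀ x y : E, ‖id x - id y‖ ≤ 1 * ‖x - y‖ := fun x y => (one_mul _).ge
  let xt : H E E := ofLip (fun x => kap (2 * r) x • id x) _ _
    (cut_bd h2 zero_le_one hz rfl hv) (cut_lip h2 zero_le_one hz rfl hv)
  refine ⟨fun q => Hol.bilL (ContinuousLinearMap.lsmul ℝ ℝ) (kapH E hr)
    (P290Z.Kur.Nem.sup hΦ (constL _ _ (ContinuousLinearMap.inl ℝ Q E q) +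
      Hol.map (ContinuousLinearMap.inr ℝ Q E) xt)), ?_, fun q x => ?_⟩
  · refine (ContinuousLinearMap.contDiff _).comp ?_
    refine (contDiff_infty.2 fun n => P290Z.Kur.Nem.contDiff_sup n hΦ).comp ?_
    exact (ContinuousLinearMap.contDiff (𝕜 := ℝ) (E := Q) (F := H E (Q × E))
      ((constL _ _).comp (ContinuousLinearMap.inl ℝ Q E))).add contDiff_const
  · show kap r x • Φ ((q, 0) + (0, kap (2 * r) x • x)) = Φ (q, x)
    rw [Prod.mk_add_mk, add_zero, zero_add]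
    rcases le_total ‖x‖ r with h | h
    · rw [kap_one hr h, kap_one h2 (by linarith), one_smul, one_smul]
    rw [h0 q x (hR.trans h)]
    rcases le_total ‖x‖ (2 * r) with h' | h'
    · rw [kap_one h2 h', one_smul, h0 q x (hR.trans h), smul_zero]
    · rw [kap_zero hr h', zero_smul]

end Vale.Agent.P301Z.An
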