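import Vale.Agent.P301Z.An.Sk
import Mathlib.Analysis.Analytic.IsolatedZeros

/-!
# P301Z, block ANA: complexification of real analytic maps
-/

open scoped Topology
open Set Filter Complex Metric
open Vale.Agent.P272.K

noncomputable section

namespace Vale.Agent.P301Z.An

namespace Cx

theorem ext0 {E F W ι : Type} [NormedAddCommGroup E] [NormedSpace ℝ E] [NormedAddCommGroup F]
    [NormedSpace ℂ F] [NormedAddCommGroup W] [NormedSpace ℝ W] [NormedSpace ℂ W]
    [IsScalarTower ℝ ℂ W] [CompleteSpace W] [Fintype ι] (b : ι → E) (l : ι → E → ℝ)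
    (X : ι → F →L[ℂ] ℂ) (c : E → F) (hb : ∀ x, x = ∑ a, l a x • b a)
    (hX : ∀ a x, X a (c x) = l a x) {G : E → W} (hG : AnalyticAt ℝ G 0) :
    ∃ G' : F → W, AnalyticAt ℂ G' 0 ∧ ∀ᶠ z in 𝓝 (0 : E), G' (c z) = G z := by
  classical
  obtain ⟨p, rp, hrp⟩ := hG
  let P : FormalMultilinearSeries ℂ F W := fun n => ∑ f : Fin n → ι,
    (ContinuousMultilinearMap.mkPiRing ℂ (Fin n) (p n fun i => b (f i))).compContinuousLinearMap
      fun i => X (f i)
  have hP : ∀ n, ∀ x : E, P n (fun _ => c x) = p n fun _ => x := by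
    intro n x
    have h1 : (p n fun _ => x) = ∑ f : Fin n → ι, (∏ i, l (f i) x) • p n (fun i => b (f i)) := by
      conv_lhs => rw [hb x]
      rw [ContinuousMultilinearMap.map_sum]
      exact Finset.sum_congr rfl fun f _ => ContinuousMultilinearMap.map_smul_univ _ _ _
    rw [h1]
    simp only [P, sum_apply, ContinuousMultilinearMap.compContinuousLinearMap_apply,
      ContinuousMultilinearMap.mkPiRing_apply, hX]
    refine Finset.sum_congr rfl fun f _ => ?_
    rw [← ofReal_prod]
    exact algebraMap_smul ℂ (∏ i, l (f i) x) _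
  set S : ℝ := ∑ a, ‖b a‖ * ‖X a‖ with hS
  have hS0 : 0 ≤ S := Finset.sum_nonneg fun a _ => by positivity
  have hPn : ∀ n, ‖P n‖ ≤ ‖p n‖ * S ^ n := by
    intro n
    have h1 : S ^ n = ∑ f : Fin n → ι, ∏ i, (‖b (f i)‖ * ‖X (f i)‖) := by
      have := Finset.prod_univ_sum (fun _ : Fin n => (Finset.univ : Finset ι))
        (fun _ a => ‖b a‖ * ‖X a‖)
      rw [Finset.prod_const, Finset.card_fin] at this
      rw [hS, this]
      simp
    rw [h1, Finset.mul_sum]
    refine (norm_sum_le _ _).trans (Finset.sum_le_sum fun f _ => ?_)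
    refine (ContinuousMultilinearMap.norm_compContinuousLinearMap_le _ _).trans ?_
    rw [ContinuousMultilinearMap.norm_mkPiRing, Finset.prod_mul_distrib, ← mul_assoc]
    exact mul_le_mul_of_nonneg_right ((p n).le_opNorm _)
      (Finset.prod_nonneg fun _ _ => norm_nonneg _)
  obtain ⟨C, r, hC, hr, hCr⟩ := p.le_mul_pow_of_radius_pos (hrp.r_pos.trans_le hrp.r_le)
  have hd : 0 < r * S + 1 := by positivity
  have ht0 : 0 < 1 / (r * S + 1) := by positivity
  have hrad : 0 < P.radius := by
    refine lt_of_lt_of_le (ENNReal.coe_pos.2 (Real.toNNReal_pos.2 ht0))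
      (P.le_radius_of_bound C fun n => ?_)
    rw [Real.coe_toNNReal _ ht0.le]
    calc ‖P n‖ * (1 / (r * S + 1)) ^ n ≤ ((C * r ^ n) * S ^ n) * (1 / (r * S + 1)) ^ n :=
          mul_le_mul_of_nonneg_right ((hPn n).trans
            (mul_le_mul_of_nonneg_right (hCr n) (pow_nonneg hS0 n))) (pow_nonneg ht0.le n)
      _ = C * (r * S * (1 / (r * S + 1))) ^ n := by rw [mul_pow, mul_pow]; ring
      _ ≤ C * 1 := mul_le_mul_of_nonneg_left (pow_le_one₀ (by positivity) (by
          rw [mul_one_div, div_le_one hd]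
          linarith)) hC.le
      _ = C := mul_one C
  refine ⟨P.sum, (P.hasFPowerSeriesOnBall hrad).analyticAt, ?_⟩
  filter_upwards [eball_mem_nhds (0 : E) hrp.r_pos] with z hz
  have h := hrp.hasSum hz
  rw [zero_add] at h
  rw [FormalMultilinearSeries.sum, funext fun n => hP n z, h.tsum_eq]

theorem real_zero {W : Type} [NormedAddCommGroup W] [NormedSpace ℂ W] {g : ℂ → W}
    (hg : AnalyticOnNhd ℂ g (ball 0 2)) (h0 : ∀ s : ℝ, |s| < 2 → g s = 0) : g I = 0 := by
  refine AnalyticOnNhd.eqOn_zero_of_preconnected_of_frequently_eq_zero hg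
    (convex_ball _ _).isPreconnected (mem_ball_self two_pos) ?_ (by simp)
  have h1 : Tendsto (fun s : ℝ => (s : ℂ)) (𝓝[≠] 0) (𝓝[≠] 0) :=
    tendsto_nhdsWithin_iff.2 ⟨(continuous_ofReal.tendsto' 0 0 ofReal_zero).mono_left
      nhdsWithin_le_nhds, eventually_mem_nhdsWithin.mono fun s hs => ofReal_ne_zero.2 hs⟩
  refine h1.frequently (Eventually.frequently (mem_nhdsWithin_of_mem_nhds ?_))
  filter_upwards [ball_mem_nhds (0 : ℝ) two_pos] with s hs
  exact h0 s (by simpa using hs)

end Cx

open Cx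

theorem cx : CX where
  ext N W _ _ _ _ _ G hG := by
    have := FiniteDimensional.complete ℝ W
    let x : Fin N → (Cm N × Cm N) →L[ℂ] ℂ := fun j =>
      (ContinuousLinearMap.proj j).comp (ContinuousLinearMap.fst ℂ (Cm N) (Cm N))
    let y : Fin N → (Cm N × Cm N) →L[ℂ] ℂ := fun j =>
      (ContinuousLinearMap.proj j).comp (ContinuousLinearMap.snd ℂ (Cm N) (Cm N))
    refine ext0 (ι := Fin N ⊕ Fin N)
      (Sum.elim (fun j => Pi.single j 1) fun j => Pi.single j I)
      (Sum.elim (fun j z => (z j).re) fun j z => (z j).im)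
      (Sum.elim (fun j => (1 / 2 : ℂ) • (x j + y j)) fun j => (I / 2 : ℂ) • (x j - y j))
      (fun z => (star z, z)) (fun z => ?_) ?_ hG
    · funext k
      simp [Fintype.sum_sum_type, Pi.single_apply]
    · rintro (j | j) z
      · show (1 / 2 : ℂ) * ((starRingEnd ℂ) (z j) + z j) = ((z j).re : ℂ)
        rw [re_eq_add_conj]
        ring
      · show (I / 2 : ℂ) * ((starRingEnd ℂ) (z j) - z j) = ((z j).im : ℂ)
        rw [im_eq_sub_conj]
        field_simp
        rw [I_sq]
        ring
  uniq N W _ _ _ _ _ G hG h0 := by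
    have := FiniteDimensional.complete ℝ W
    obtain ⟨r, hr, h1⟩ := Metric.eventually_nhds_iff_ball.1 hG.eventually_analyticAt
    obtain ⟨r', hr', h2⟩ := Metric.eventually_nhds_iff_ball.1 h0
    filter_upwards [ball_mem_nhds (0 : Cm N × Cm N) (div_pos (lt_min hr hr') three_pos)]
    rintro ⟨ζ, z⟩ hp
    rw [mem_ball_zero_iff, Prod.norm_def, max_lt_iff] at hp
    set a : Cm N := (1 / 2 : ℂ) • (z + star ζ) with ha
    set b : Cm N := (I / 2 : ℂ) • (star ζ - z) with hb
    have ha' : ‖a‖ < min r r' / 3 := by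
      rw [ha, norm_smul]
      have := norm_add_le z (star ζ)
      rw [norm_star] at this
      norm_num
      linarith [hp.1, hp.2]
    have hb' : ‖b‖ < min r r' / 3 := by
      rw [hb, norm_smul]
      have := norm_sub_le (star ζ) z
      rw [norm_star] at this
      norm_num
      linarith [hp.1, hp.2]
    have h3 : ∀ {s : ℂ} {u v : Cm N}, ‖s‖ < 2 → ‖u‖ = ‖a‖ → ‖v‖ = ‖b‖ →
        ‖u + s • v‖ < min r r' := fun {s u v} hs hu hv => by
      have := norm_add_le u (s • v)
      rw [norm_smul, hu, hv] at this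
      nlinarith [norm_nonneg b]
    have h4 := real_zero (g := fun s : ℂ => G ((star a, a) + s • (star b, b))) (fun s hs => by
      rw [mem_ball_zero_iff] at hs
      refine AnalyticAt.fun_comp (g := G) (h1 _ ?_)
        (analyticAt_const.add (analyticAt_id.smul analyticAt_const))
      rw [mem_ball_zero_iff, Prod.norm_def, max_lt_iff]
      exact ⟨(h3 hs (norm_star a) (norm_star b)).trans_le (min_le_left _ _),
        (h3 hs rfl rfl).trans_le (min_le_left _ _)⟩) fun s hs => by
      rw [← h2 (a + (s : ℂ) • b) (mem_ball_zero_iff.2 ((h3 (by simpa using hs) rfl rfl).trans_le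
        (min_le_right _ _)))]
      refine congrArg G (Prod.ext ?_ rfl)
      funext k
      simp
    rw [← h4]
    refine congrArg G (Prod.ext ?_ ?_)
    · funext k
      simp only [ha, hb, Prod.fst_add, Prod.smul_fst, Pi.add_apply, Pi.smul_apply, Pi.star_apply,
        Pi.sub_apply, smul_eq_mul, star_mul', star_add, star_sub, star_div₀,
        RCLike.star_def, conj_conj, conj_I, map_one, conj_ofNat]
      linear_combination ((1 / 2) * ζ k - (1 / 2) * (starRingEnd ℂ) (z k)) * I_mul_I
    · funext k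
      simp only [ha, hb, Prod.snd_add, Prod.smul_snd, Pi.add_apply, Pi.smul_apply, Pi.star_apply,
        Pi.sub_apply, smul_eq_mul]
      linear_combination ((1 / 2) * z k - (1 / 2) * star (ζ k)) * I_mul_I

end Vale.Agent.P301Z.An
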