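import Vale.Agent.P301Z.An.Defs

/-!
# P301Z, block ANA (Newlander-Nirenberg): statements
-/

open scoped ContDiff Topology NNReal
open Set Filter Complex Module Metric
open Vale.Agent.P272.K Vale.Agent.P272.K.LIN

noncomputable section

namespace Vale.Agent.P301Z.An

/-- a statement on finite dimensional real spaces -/
def ForR (P : ∀ (E : Type) [NormedAddCommGroup E] [NormedSpace ℝ E], Prop) : Prop :=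
  ∀ (E : Type) [NormedAddCommGroup E] [NormedSpace ℝ E] [FiniteDimensional ℝ E], P E

/-- a statement on finite dimensional complex spaces -/
def ForC (P : ∀ (F : Type) [NormedAddCommGroup F] [NormedSpace ℝ F] [NormedSpace ℂ F], Prop) :
    Prop :=
  ∀ (F : Type) [NormedAddCommGroup F] [NormedSpace ℝ F] [NormedSpace ℂ F] [IsScalarTower ℝ ℂ F]
    [FiniteDimensional ℝ F], P F

/-- a statement on spaces with a basis -/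
def ForB (P : ∀ (E : Type) [NormedAddCommGroup E] [NormedSpace ℝ E] (ι : Type) [Fintype ι],
    (ι → E) → Prop) : Prop :=
  ∀ (E : Type) [NormedAddCommGroup E] [NormedSpace ℝ E] [FiniteDimensional ℝ E] (ι : Type)
    [Fintype ι] (b : Basis ι ℝ E), P E ι b

/-! ### Hoelder spaces -/

/-- **RES** -/
def RES : Prop := ForB fun E _ _ _ _ b => ForR fun V _ _ =>
  ∃ R : H E V →L[ℝ] H E (Jt E V), (∀ φ, IsJet (R φ)) ∧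
    (∀ φ x, (R φ x).1 - trL b (R φ x) = φ x) ∧
    ∀ (h : H E (Jt E V)) (φ : H E V), IsJet h → (∀ x, (h x).1 - trL b (h x) = φ x) → h = R φ

/-- **CUT** -/
def CUT : Prop := ForR fun E _ _ => Nontrivial E → ForR fun V _ _ => ∀ η : ℝ, 0 < η →
  ∃ (r : ℝ) (x₁ : E) (κ : E → ℝ) (K : H E (Jt E V) →L[ℝ] H E V), 0 < r ∧ r / 2 < ‖x₁‖ ∧
    (∀ x ∈ ball (0 : E) r, κ x = 1) ∧ (∀ h x, K h x = κ x • ((h x).1 - (h x₁).1)) ∧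
    ∀ h : H E (Jt E V), IsJet h → ‖K h‖ ≤ η * ‖h‖

/-- **ANEM** -/
def ANEM : Prop := ∀ (Y : Type) (w : Y → Y → ℝ≥0), ForR fun V _ _ => ForR fun W _ _ =>
  ∀ Φ : V → W, AnalyticAt ℝ Φ 0 → ∃ N : Hol w V → Hol w W, AnalyticAt ℝ N 0 ∧
    ∀ᶠ h in 𝓝 (0 : Hol w V), ∀ x, N h x = Φ (h x)

/-- **PAR** -/
def PAR : Prop := ForR fun Q _ _ => ForR fun E _ _ => ForR fun W _ _ =>
  ∀ (Φ : Q × E → W) (R : ℝ), ContDiff ℝ ∞ Φ → (∀ q x, R ≤ ‖x‖ → Φ (q, x) = 0) →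
    ∃ A : Q → H E W, ContDiff ℝ ∞ A ∧ ∀ q x, A q x = Φ (q, x)

/-- **COMP** -/
def COMP : Prop := ForR fun E _ _ => ForR fun V _ _ => ForR fun P _ _ => ∀ χ : E → ℝ,
  ContDiff ℝ ∞ χ → HasCompactSupport χ →
  ∃ (JI : Ch E × Jt E V → Jt E V) (D : E →L[ℝ] H E (Ch E)) (C : ℝ), 0 < C ∧
    AnalyticAt ℝ JI 0 ∧ (∀ j, JI (0, j) = j) ∧ (∀ τ, ∀ x ∉ tsupport χ, D τ x = 0) ∧
    ∀ᶠ τ in 𝓝 (0 : E),
      (∀ a : H E P, ∃ a' : H E P, ‖a'‖ ≤ C * ‖a‖ ∧ ∀ x, a' x = a (x + χ x • τ)) ∧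
      ∀ h : H E (Jt E V), IsJet h → ∃ h' : H E (Jt E V), IsJet h' ∧ ‖h'‖ ≤ C * ‖h‖ ∧
        ∀ x, (h' x).1 = (h (x + χ x • τ)).1 ∧ h (x + χ x • τ) = JI (D τ x, h' x)

/-- **CORE** -/
def CORE : Prop := ForB fun E _ _ _ _ b => Nontrivial E → ForR fun V _ _ => ForR fun P _ _ =>
  ∀ F : P × Jt E V → V, AnalyticAt ℝ F 0 → F 0 = 0 → HasFDerivAt (fun j => F (0, j)) (trL b) 0 →
  ∃ (r δ : ℝ) (χ : E → ℝ), 0 < r ∧ 0 < δ ∧ ContDiff ℝ ∞ χ ∧ HasCompactSupport χ ∧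
    (∀ η : ℝ, 0 < η → ∀ᶠ a in 𝓝 (0 : H E P), ∃ (h : H E (Jt E V)) (c : V), ‖h‖ < η ∧ IsJet h ∧
      ∀ x ∈ ball (0 : E) r, F (a x, h x) = c) ∧
    ∀ (a : H E P) (h : H E (Jt E V)) (c : V), ‖a‖ < δ → ‖h‖ < δ → IsJet h →
      (∀ x ∈ ball (0 : E) r, F (a x, h x) = c) → ∃ T : E × H E P → V, AnalyticAt ℝ T (0, a) ∧
        ∀ᶠ τ in 𝓝 (0 : E), ∀ a' : H E P, (∀ x, a' x = a (x + χ x • τ)) → (h τ).1 = T (τ, a')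

/-! ### Elliptic systems -/

/-- **MA** -/
def MA : Prop := ForB fun E _ _ _ _ b => ForR fun V _ _ => ForR fun P _ _ =>
  ∀ F : P × Jt E V → V, AnalyticAt ℝ F 0 → F 0 = 0 → HasFDerivAt (fun j => F (0, j)) (trL b) 0 →
  ∀ a : ℝ × E → P, ContDiff ℝ ∞ a → (∀ x, a (0, x) = 0) → ∀ η : ℝ, 0 < η →
    ∀ᶠ ε in 𝓝 (0 : ℝ), ∃ (u : E → V) (c : V), ‖jt u 0‖ < η ∧ Sm u 0 ∧
      ∀ᶠ x in 𝓝 (0 : E), F (a (ε, x), jt u x) = c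

/-- **MB** -/
def MB : Prop := ForB fun E _ _ _ _ b => ForR fun V _ _ =>
  ∀ F : Jt E V → V, AnalyticAt ℝ F 0 → F 0 = 0 → HasFDerivAt F (trL b) 0 →
  (∀ (ε : ℝ) (j : Jt E V), F (j.1, ε • j.2.1, ε ^ 2 • j.2.2) = ε ^ 2 • F j) →
  ∃ δ : ℝ, 0 < δ ∧ ∀ B : E → V, Sm B 0 → ‖B 0‖ < δ → (∀ᶠ x in 𝓝 (0 : E), F (jt B x) = 0) →
    AnalyticAt ℝ B 0

/-! ### The steps of the proof of Malgrange -/

/-- **GAUGE** -/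
def GAUGE : Prop := ∀ (N : ℕ) (θ : Cm N → Cm N →L[ℝ] Cm N), Sm θ 0 →
  θ 0 = ContinuousLinearMap.id ℝ _ → ∀ η : ℝ, 0 < η →
  ∃ (f g : Cm N → Cm N) (B M : Cm N → Cm N →L[ℝ] Cm N) (c : Cm N), Sm f 0 ∧ Sm g 0 ∧ Sm B 0 ∧
    Sm M 0 ∧ f 0 = 0 ∧ g 0 = 0 ∧ (∀ᶠ x in 𝓝 (0 : Cm N), g (f x) = x) ∧ ‖B 0‖ < η ∧
    ∀ᶠ w in 𝓝 (0 : Cm N), Lin (M w) ∧ Function.Injective (M w) ∧ Anti (B w) ∧
      (∀ u, u + B w u = M w (θ (g w) (fderiv ℝ g w u))) ∧ dv B w = c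

/-- **INT** -/
structure INT : Prop where
  pull : ForR fun E _ _ => ForR fun E' _ _ => ForC fun F _ _ _ => ∀ (θ : E → E →L[ℝ] F)
    (g : E' → E) (w : E'), Sm g w → Sm θ (g w) → Int θ (g w) →
    Int (fun w => (θ (g w)).comp (fderiv ℝ g w)) w
  mul : ForR fun E _ _ => ForC fun F _ _ _ => ForC fun F' _ _ _ => ∀ (θ : E → E →L[ℝ] F)
    (M : E → F →L[ℝ] F') (x : E), Sm θ x → Sm M x → Function.Injective (M x) →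
    (∀ᶠ y in 𝓝 x, ∀ u, M y (I • u) = I • M y u) → Int θ x → Int (fun y => (M y).comp (θ y)) x
  bel : ForC fun F _ _ _ => ∀ (θ B : F → F →L[ℝ] F) (x : F), Sm B x →
    (∀ᶠ y in 𝓝 x, Anti (B y) ∧ ∀ u, u + B y u = θ y u) → Int θ x → Bel B x

/-- **ELL** -/
def ELL : Prop := ∀ N : ℕ, ∃ δ : ℝ, 0 < δ ∧ ∀ (B : Cm N → Cm N →L[ℝ] Cm N) (c : Cm N), Sm B 0 →
  ‖B 0‖ < δ → (∀ᶠ w in 𝓝 (0 : Cm N), Anti (B w) ∧ Bel B w ∧ dv B w = c) → AnalyticAt ℝ B 0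

/-- **CX** -/
structure CX : Prop where
  ext : ∀ N : ℕ, ForC fun W _ _ _ => ∀ G : Cm N → W, AnalyticAt ℝ G 0 →
    ∃ G' : Cm N × Cm N → W, AnalyticAt ℂ G' 0 ∧ ∀ᶠ z in 𝓝 (0 : Cm N), G' (star z, z) = G z
  uniq : ∀ N : ℕ, ForC fun W _ _ _ => ∀ G : Cm N × Cm N → W, AnalyticAt ℂ G 0 →
    (∀ᶠ z in 𝓝 (0 : Cm N), G (star z, z) = 0) → ∀ᶠ p in 𝓝 (0 : Cm N × Cm N), G p = 0

/-- **AF** -/
def AF : Prop := ∀ (N : ℕ) (B : Cm N → Cm N →L[ℝ] Cm N), AnalyticAt ℝ B 0 →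
  (∀ᶠ w in 𝓝 (0 : Cm N), Anti (B w) ∧ Bel B w) → ∃ W : Cm N → Cm N, AnalyticAt ℝ W 0 ∧
    (∀ u, fderiv ℝ W 0 u = u + B 0 u) ∧
    ∀ᶠ w in 𝓝 (0 : Cm N), ∃ L : Cm N →L[ℂ] Cm N, ∀ u, fderiv ℝ W w u = L (u + B w u)

/-! ### The theorem of Newlander and Nirenberg -/

/-- **NN0** -/
def NN0 : Prop := ∀ (N : ℕ) (θ : Cm N → Cm N →L[ℝ] Cm N), Sm θ 0 →
  θ 0 = ContinuousLinearMap.id ℝ _ → (∀ᶠ x in 𝓝 (0 : Cm N), Int θ x) →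
  ∃ W : Cm N → Cm N, Sm W 0 ∧ fderiv ℝ W 0 = ContinuousLinearMap.id ℝ _ ∧
    ∀ᶠ x in 𝓝 (0 : Cm N), Cl (θ x) (fderiv ℝ W x)

/-- **NN** -/
def NN : Prop := ForR fun E _ _ => ForC fun F _ _ _ => ∀ (θ : E → E →L[ℝ] F) (x₀ : E), Sm θ x₀ →
  Function.Bijective (θ x₀) → (∀ᶠ x in 𝓝 x₀, Int θ x) →
  ∃ W : E → F, Sm W x₀ ∧ fderiv ℝ W x₀ = θ x₀ ∧ ∀ᶠ x in 𝓝 x₀, Cl (θ x) (fderiv ℝ W x)

/-- **NNP**: holomorphic parameters -/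
def NNP : Prop := ForC fun P _ _ _ => ForR fun E _ _ => ForC fun F _ _ _ =>
  ∀ (θ : P × E → E →L[ℝ] F) (q₀ : P × E), Sm θ q₀ → Function.Bijective (θ q₀) →
  (∀ᶠ q in 𝓝 q₀, Int0 (θ q) (Dy θ q) ∧ ∀ u, DifferentiableAt ℂ (fun p => θ (p, q.2) u) q.1) →
  ∃ W : P × E → F, Sm W q₀ ∧ ∀ᶠ q in 𝓝 q₀, Function.Bijective (Dy W q) ∧ Cl (θ q) (Dy W q) ∧
    DifferentiableAt ℂ (fun p => W (p, q.2)) q.1

/-- **CNN**: closed two-forms which define a complex structure -/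
def CNN : Prop := ForC fun P _ _ _ => ForC fun E _ _ _ =>
  ∀ (Ω : P × E → E →L[ℝ] E →L[ℝ] ℂ) (q₀ : P × E), Sm Ω q₀ →
  (∀ u, (∀ v, Ω q₀ u v = 0) → u = 0) →
  (∀ᶠ q in 𝓝 q₀, (∀ u v, Ω q u v = -Ω q v u) ∧
    (∀ u v w, Dy Ω q u v w + Dy Ω q v w u + Dy Ω q w u v = 0) ∧
    (∀ u, ∃ u', ∀ v, Ω q u' v = I * Ω q u v) ∧
    ∀ u v, DifferentiableAt ℂ (fun p => Ω (p, q.2) u v) q.1) →
  ∃ W : P × E → E, Sm W q₀ ∧ ∀ᶠ q in 𝓝 q₀, Function.Bijective (Dy W q) ∧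
    (∀ u u', (∀ v, Ω q u' v = I * Ω q u v) → Dy W q u' = I • Dy W q u) ∧
    DifferentiableAt ℂ (fun p => W (p, q.2)) q.1

end Vale.Agent.P301Z.An
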