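import Mathlib
import Vale.Agent.P301Z.An.Sk

/-!
# P301Z, block ANA: an integrable Beltrami coefficient of constant divergence is analytic
-/

open scoped ContDiff Topology NNReal
open Set Filter Complex Module Metric
open Vale.Agent.P272.K Vale.Agent.P272.K.LIN

noncomputable section

namespace Vale.Agent.P301Z.An

namespace Ell

theorem bil {J X Y Z : Type} [NormedAddCommGroup J] [NormedSpace ℝ J] [NormedAddCommGroup X]
    [NormedSpace ℝ X] [NormedAddCommGroup Y] [NormedSpace ℝ Y] [NormedAddCommGroup Z]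
    [NormedSpace ℝ Z] (B : X →L[ℝ] Y →L[ℝ] Z) (f : J →L[ℝ] X) (g : J →L[ℝ] Y) :
    AnalyticAt ℝ (fun j => B (f j) (g j)) 0 ∧
      HasFDerivAt (fun j => B (f j) (g j)) (0 : J →L[ℝ] Z) 0 := by
  refine ⟨(B.analyticAt_bilinear _).comp₂ (f.analyticAt 0) (g.analyticAt 0), ?_⟩
  have := B.hasFDerivAt_of_bilinear (f.hasFDerivAt (x := 0)) (g.hasFDerivAt (x := 0))
  simpa using this

theorem sub0 {J Z : Type} [NormedAddCommGroup J] [NormedSpace ℝ J] [NormedAddCommGroup Z]
    [NormedSpace ℝ Z] (L : J →L[ℝ] Z) (g : J → Z) (hg : HasFDerivAt g (0 : J →L[ℝ] Z) 0) :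
    HasFDerivAt (fun j => L j - g j) L 0 := by
  have := L.hasFDerivAt.sub hg
  rwa [sub_zero] at this

section gen

variable {E V ι : Type} [NormedAddCommGroup E] [NormedSpace ℝ E] [NormedAddCommGroup V]
  [NormedSpace ℝ V] [Fintype ι] (b : ι → E) (A : ι → (E →L[ℝ] V) →L[ℝ] V →L[ℝ] V)

/-- the nonlinear part of the equation -/
def Q (j : Jt E V) : V := ∑ i, (A i (j.2.2 (b i)) j.1 + A i j.2.1 (j.2.1 (b i)))

theorem Q_an : AnalyticAt ℝ (Q b A) 0 ∧ HasFDerivAt (Q b A) (0 : Jt E V →L[ℝ] V) 0 := by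
  have h1 := fun i => bil (J := Jt E V) (A i)
    ((ContinuousLinearMap.apply ℝ _ (b i)).comp
      ((ContinuousLinearMap.snd ℝ _ _).comp (ContinuousLinearMap.snd ℝ _ _)))
    (ContinuousLinearMap.fst ℝ _ _)
  have h2 := fun i => bil (J := Jt E V) (A i)
    ((ContinuousLinearMap.fst ℝ _ _).comp (ContinuousLinearMap.snd ℝ _ _))
    ((ContinuousLinearMap.apply ℝ _ (b i)).comp
      ((ContinuousLinearMap.fst ℝ _ _).comp (ContinuousLinearMap.snd ℝ _ _)))
  refine ⟨Finset.analyticAt_fun_sum _ fun i _ => (h1 i).1.add (h2 i).1, ?_⟩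
  have := HasFDerivAt.fun_sum (u := Finset.univ) fun i _ => (h1 i).2.add (h2 i).2
  rw [add_zero, Finset.sum_const_zero] at this
  exact this

/-- the equation -/
def F (j : Jt E V) : V := trL b j - Q b A j

theorem F_an : AnalyticAt ℝ (F b A) 0 := ((trL b).analyticAt 0).sub (Q_an b A).1

theorem F_zero : F b A 0 = 0 := by simp [F, Q]

theorem F_der : HasFDerivAt (F b A) (trL b) 0 := sub0 (J := Jt E V) (trL b) (Q b A) (Q_an b A).2

theorem F_hom (ε : ℝ) (j : Jt E V) : F b A (j.1, ε • j.2.1, ε ^ 2 • j.2.2) = ε ^ 2 • F b A j := by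
  simp only [F, trL_apply, Q, smul_apply, map_smul, smul_sub, Finset.smul_sum, smul_add,
    smul_smul, sq]

end gen

variable {N : ℕ}

/-- multiplication by `I` -/
def mI (N : ℕ) : Cm N →L[ℝ] Cm N := I • ContinuousLinearMap.id ℝ (Cm N)

@[simp] theorem mI_apply (u : Cm N) : mI N u = I • u := rfl

/-- the antisymmetrisation -/
def X (a : Cm N) (D : Cm N →L[ℝ] Cm N →L[ℝ] Cm N) (P : Cm N →L[ℝ] Cm N) : Cm N →L[ℝ] Cm N :=
  D (P a) - (D.flip a).comp P

/-- the quadratic terms -/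
def A (a : Cm N) :
    (Cm N →L[ℝ] Cm N →L[ℝ] Cm N) →L[ℝ] (Cm N →L[ℝ] Cm N) →L[ℝ] Cm N →L[ℝ] Cm N :=
  LinearMap.toContinuousBilinearMap (𝕜 := ℝ) (E := Cm N →L[ℝ] Cm N →L[ℝ] Cm N)
    (F := Cm N →L[ℝ] Cm N) (G := Cm N →L[ℝ] Cm N)
    (LinearMap.mk₂ ℝ (fun D P => X a D P - (mI N).comp (X a D ((mI N).comp P)))
    (fun _ _ _ => ContinuousLinearMap.ext fun c => by simp [X]; module)
    (fun _ _ _ => ContinuousLinearMap.ext fun c => by simp [X]; module)
    (fun _ _ _ => ContinuousLinearMap.ext fun c => by simp [X]; module)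
    (fun _ _ _ => ContinuousLinearMap.ext fun c => by
      simp [X, smul_sub]))

theorem A_apply (a : Cm N) (D : Cm N →L[ℝ] Cm N →L[ℝ] Cm N) (P : Cm N →L[ℝ] Cm N) (c : Cm N) :
    A a D P c = D (P a) c - D (P c) a - I • (D (I • P a) c - D (I • P c) a) := rfl

theorem eqn {B : Cm N → Cm N →L[ℝ] Cm N} {x c₀ : Cm N} (hB : ContDiffAt ℝ ∞ B x)
    (h : ∀ᶠ w in 𝓝 x, Bel B w ∧ dv B w = c₀) : F (rb N) (fun i => A (rb N i)) (jt B x) = 0 := by
  have hq : HasFDerivAt B (fderiv ℝ B x) x := (hB.differentiableAt (by simp)).hasFDerivAt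
  have hr : HasFDerivAt (fderiv ℝ B) (fderiv ℝ (fderiv ℝ B) x) x :=
    ((hB.fderiv_right (m := ∞) le_rfl).differentiableAt (by simp)).hasFDerivAt
  have hs : ∀ u v, fderiv ℝ (fderiv ℝ B) x u v = fderiv ℝ (fderiv ℝ B) x v u :=
    (hB.isSymmSndFDerivAt (by
      simpa using (WithTop.coe_le_coe.2 le_top : ((2 : ℕ∞) : WithTop ℕ∞) ≤ ∞))).eq
  set q := fderiv ℝ B x with hqd
  set r := fderiv ℝ (fderiv ℝ B) x with hrd
  have h1 : ∀ a, HasFDerivAt (fun y => B y a) (q.flip a) x := fun a => by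
    simpa using hq.clm_apply (hasFDerivAt_const a x)
  have h2 : ∀ a c, HasFDerivAt (fun y => fderiv ℝ B y (a - B y a) c +
      I • fderiv ℝ B y (I • (a + B y a)) c) _ x := fun a c =>
    ((hr.clm_apply ((h1 a).const_sub a)).clm_apply (hasFDerivAt_const c x)).add
      (((hr.clm_apply (((h1 a).const_add a).const_smul I)).clm_apply
        (hasFDerivAt_const c x)).const_smul I)
  have h3 : ∀ e a c, r e (a - B x a) c - q (q e a) c + I • (r e (I • (a + B x a)) c +
      q (I • q e a) c) = r e (c - B x c) a - q (q e c) a + I • (r e (I • (c + B x c)) a +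
      q (I • q e c) a) := fun e a c => by
    have := congrArg (fun D : Cm N →L[ℝ] Cm N => D e) ((h2 a c).unique
      ((h2 c a).congr_of_eventuallyEq (h.mono fun w hw => hw.1 a c)))
    simp only [add_apply, ContinuousLinearMap.comp_zero, zero_add,
      ContinuousLinearMap.flip_apply, ContinuousLinearMap.comp_apply, neg_apply,
      smul_apply, map_neg, ← hqd] at this
    linear_combination (norm := module) this
  have h4 : ∀ u, ∑ i, r (rb N i) u (rb N i) = 0 := fun u => by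
    have h5 : HasFDerivAt (dv B) _ x := HasFDerivAt.fun_sum (u := Finset.univ) fun i _ =>
      (hr.clm_apply (hasFDerivAt_const (rb N i) x)).clm_apply (hasFDerivAt_const (rb N i) x)
    have := congrArg (fun D : Cm N →L[ℝ] Cm N => D u) (h5.unique
      ((hasFDerivAt_const c₀ x).congr_of_eventuallyEq (h.mono fun w hw => hw.2)))
    simpa [hs u] using this
  have h5 := sum_rb_I r hs
  refine ContinuousLinearMap.ext fun c => ?_
  have h6 := congrArg (fun D : Cm N →L[ℝ] Cm N => D c) h5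
  have h7 := Finset.sum_congr rfl fun i (_ : i ∈ Finset.univ) => h3 (rb N i) (rb N i) c
  simp only [F, trL_apply, Q, jt, ← hqd, ← hrd, sub_apply,
    sum_apply, add_apply, A_apply,
    zero_apply, smul_add, smul_sub, map_add, map_sub, Finset.sum_add_distrib,
    Finset.sum_sub_distrib, ← Finset.smul_sum, h4] at h6 h7 ⊢
  rw [h6] at h7
  linear_combination (norm := module) h7

end Ell

open Ell

theorem ell_of (hM : MB) : ELL := by
  intro N
  obtain ⟨δ, hδ, h⟩ := hM (Cm N) _ (rb N) (Cm N →L[ℝ] Cm N) (F (rb N) fun i => A (rb N i))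
    (F_an _ _) (F_zero _ _) (F_der _ _) (F_hom _ _)
  refine ⟨δ, hδ, fun B c hB h0 h1 => h B hB h0 ?_⟩
  filter_upwards [hB, h1.eventually_nhds] with x h2 h3
  exact eqn h2 (h3.mono fun w hw => hw.2)

end Vale.Agent.P301Z.An
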