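import Vale.Agent.P301Z.An.GaugeA

/-!
# P301Z, block ANA: the gauge of Malgrange
-/

open scoped ContDiff Topology
open Set Filter Complex Module
open Vale.Agent.P272.K

noncomputable section

namespace Vale.Agent.P301Z.An

namespace Gauge

variable {E ι : Type} [NormedAddCommGroup E] [NormedSpace ℝ E] [Fintype ι]
  (J : E →L[ℝ] E) (b : ι → E)

/-- the gauge equation -/
def FF (z : ((E →L[ℝ] E) × (E →L[ℝ] E →L[ℝ] E)) × Jt E E) : E :=
  (-2 : ℝ) • ∑ i, fderiv ℝ (Ps J) (1 + z.1.1, z.2.2.1)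
    (z.1.2 (Ring.inverse (1 + z.2.2.1) (b i)), z.2.2.2 (Ring.inverse (1 + z.2.2.1) (b i)))
      (b i) - J (∑ i, z.2.2.2 (b i) (J (b i)))

theorem FF_zero (p : E) (q : E →L[ℝ] E) : FF J b (0, (p, q, 0)) = 0 := by
  simp [FF, Prod.mk_zero_zero]

variable {J} [CompleteSpace E]

theorem FF_an (hJ : J * J = -1) : AnalyticAt ℝ (FF J b) 0 := by
  refine ContDiffAt.analyticAt ?_
  have h1 : ContDiffAt ℝ ω (fun z : ((E →L[ℝ] E) × (E →L[ℝ] E →L[ℝ] E)) × Jt E E =>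
      Ring.inverse (1 + z.2.2.1)) 0 := cd_inv (by fun_prop) (by simp)
  have h2 : ContDiffAt ℝ ω (fun z : ((E →L[ℝ] E) × (E →L[ℝ] E →L[ℝ] E)) × Jt E E =>
      fderiv ℝ (Ps J) (1 + z.1.1, z.2.2.1)) 0 := by
    refine ContDiffAt.comp (g := fderiv ℝ (Ps J)) 0 ?_ (by fun_prop)
    simpa using ((Gd_one hJ).cd_Ps (n := ω)).fderiv_right (m := ω) le_rfl
  refine ContDiffAt.sub (ContDiffAt.const_smul _ (ContDiffAt.sum fun i _ => ?_)) (by fun_prop)
  have h3 := h1.clm_apply (contDiffAt_const (c := b i))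
  exact (h2.clm_apply ((ContDiffAt.clm_apply (by fun_prop) h3).prodMk
    (ContDiffAt.clm_apply (by fun_prop) h3))).clm_apply contDiffAt_const

theorem FF_tr (hJ : J * J = -1) (r : E →L[ℝ] E →L[ℝ] E) :
    FF J b (0, (0, 0, r)) = ∑ i, r (b i) (b i) := by
  simp only [FF, Prod.fst_zero, Prod.snd_zero, add_zero, Ring.inverse_one, zero_apply,
    one_apply_eq_self, fderiv_Ps hJ, Lm_apply, neg_apply, smul_apply, add_apply,
    mul_apply_eq_comp, map_sum, Finset.smul_sum, ← Finset.sum_sub_distrib]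
  refine Finset.sum_congr rfl fun i _ => ?_
  module

theorem der_split {X Y : Type} [NormedAddCommGroup X] [NormedSpace ℝ X] [NormedAddCommGroup Y]
    [NormedSpace ℝ Y] {G : X → Y} (h : DifferentiableAt ℝ G 0) (L₁ L₂ : X →L[ℝ] X)
    (T : X →L[ℝ] Y) (h0 : ∀ j, j = L₁ j + L₂ j) (h1 : ∀ j, G (L₁ j) = 0)
    (h2 : ∀ j, G (L₂ j) = T j) : HasFDerivAt G T 0 := by
  have key : ∀ L : X →L[ℝ] X, HasFDerivAt (fun j => G (L j)) ((fderiv ℝ G 0).comp L) 0 :=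
    fun L => HasFDerivAt.comp (g := G) 0 (by rw [map_zero]; exact h.hasFDerivAt) L.hasFDerivAt
  have h3 := (key L₁).unique ((hasFDerivAt_const (0 : Y) _).congr_of_eventuallyEq
    (Eventually.of_forall h1))
  have h4 := (key L₂).unique (T.hasFDerivAt.congr_of_eventuallyEq (Eventually.of_forall h2))
  refine h.hasFDerivAt.congr_fderiv (ContinuousLinearMap.ext fun j => ?_)
  conv_lhs => rw [h0 j, map_add]
  exact (congrArg₂ (· + ·) (DFunLike.congr_fun h3 j) (DFunLike.congr_fun h4 j)).trans (zero_add _)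

theorem FF_der (hJ : J * J = -1) : HasFDerivAt (fun j => FF J b (0, j)) (trL b) 0 := by
  have h : DifferentiableAt ℝ (fun j => FF J b (0, j)) 0 :=
    DifferentiableAt.comp (g := FF J b) 0 (FF_an b hJ).differentiableAt (by fun_prop)
  let L₁ : Jt E E →L[ℝ] Jt E E := (ContinuousLinearMap.fst ℝ _ _).prod
    (((ContinuousLinearMap.fst ℝ _ _).comp (ContinuousLinearMap.snd ℝ _ _)).prod 0)
  let L₂ : Jt E E →L[ℝ] Jt E E := (0 : _ →L[ℝ] _).prod ((0 : _ →L[ℝ] _).prod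
    ((ContinuousLinearMap.snd ℝ _ _).comp (ContinuousLinearMap.snd ℝ _ _)))
  have h0 : ∀ j, j = L₁ j + L₂ j := fun j => by simp [L₁, L₂]
  have h1 : ∀ j, FF J b (0, L₁ j) = 0 := fun j => FF_zero J b j.1 j.2.1
  have h2 : ∀ j, FF J b (0, L₂ j) = trL b j := fun j =>
    (FF_tr b hJ j.2.2).trans (trL_apply _ j).symm
  exact der_split (X := Jt E E) h L₁ L₂ (trL b) h0 h1 h2

theorem dv_eq (hs : ∀ r : E →L[ℝ] E →L[ℝ] E, (∀ u v, r u v = r v u) → ∑ i, r (b i) (J (b i)) = 0)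
    {T : E → E →L[ℝ] E} {u g : E → E} {w : E} (hT : ContDiffAt ℝ ∞ T (g w))
    (hu : ContDiffAt ℝ ∞ u (g w)) (hg : ContDiffAt ℝ ∞ g w)
    (hd : fderiv ℝ g w = Ring.inverse (1 + fderiv ℝ u (g w)))
    (hG : Gd J (T (g w), fderiv ℝ u (g w))) :
    ∑ i, fderiv ℝ (fun w => Ps J (T (g w), fderiv ℝ u (g w))) w (b i) (b i) =
      (-1 / 2 : ℝ) • FF J b ((T (g w) - 1, fderiv ℝ T (g w)), jt u (g w)) := by
  have h1 := (hg.differentiableAt (by simp)).hasFDerivAt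
  have h2 := ((hG.cd_Ps (n := 1)).differentiableAt one_ne_zero).hasFDerivAt.comp w
    (((hT.differentiableAt (by simp)).hasFDerivAt.comp w h1).prodMk
      (((cd_fderiv hu).differentiableAt (by simp)).hasFDerivAt.comp w h1))
  have h3 : fderiv ℝ (fun w => Ps J (T (g w), fderiv ℝ u (g w))) w = _ := h2.fderiv
  have h4 := hs (fderiv ℝ (fderiv ℝ u) (g w)) (hu.isSymmSndFDerivAt (by
    rw [minSmoothness_of_isRCLikeNormedField]
    exact WithTop.coe_le_coe.2 le_top))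
  simp only [FF, jt, h3, h4, hd, map_zero, sub_zero, add_sub_cancel, smul_smul]
  norm_num

theorem solve [FiniteDimensional ℝ E] (hMA : MA) (b : Basis ι ℝ E) (hJ : J * J = -1)
    {θ : E → E →L[ℝ] E} (hθ : ContDiff ℝ ∞ θ) (h0 : θ 0 = 1) {η : ℝ} (hη : 0 < η) :
    ∃ (ε : ℝ) (u : E → E) (c : E), ε ≠ 0 ∧ Sm u 0 ∧ Gd J (1, fderiv ℝ u 0) ∧
      ‖Ps J (1, fderiv ℝ u 0)‖ < η ∧ ∀ᶠ x in 𝓝 (0 : E),
        FF J b ((θ (ε • x) - 1, fderiv ℝ (fun x => θ (ε • x)) x), jt u x) = c := by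
  have hc : Tendsto (fun q : E →L[ℝ] E => ((1 : E →L[ℝ] E), q)) (𝓝 0) (𝓝 (1, 0)) :=
    (Continuous.prodMk_right _).tendsto 0
  have hP := ((Gd_one hJ).cd_Ps (n := 0)).continuousAt.norm.tendsto
  rw [Ps_one hJ, norm_zero] at hP
  obtain ⟨δ, hδ, h1⟩ := Metric.eventually_nhds_iff.1
    (hc.eventually ((Gd_one hJ).ev.and (hP.eventually (gt_mem_nhds hη))))
  have ha : ContDiff ℝ ∞ fun p : ℝ × E =>
      (θ (p.1 • p.2) - 1, fderiv ℝ (fun x => θ (p.1 • x)) p.2) :=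
    ((hθ.comp (contDiff_fst.smul contDiff_snd)).sub contDiff_const).prodMk
      (ContDiff.fderiv (f := fun (p : ℝ × E) x => θ (p.1 • x)) (m := ∞)
        (hθ.comp (contDiff_fst.fst.smul contDiff_snd)) contDiff_snd le_rfl)
  obtain ⟨ε, ⟨u, c, hj, hu, hF⟩, hε⟩ := (((hMA E _ b E _ (FF J b) (FF_an b hJ) (FF_zero J b 0 0)
    (FF_der b hJ) _ ha (fun x => by simp [h0]) δ hδ).filter_mono nhdsWithin_le_nhds).and
      (self_mem_nhdsWithin (s := {0}ᶜ))).exists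
  obtain ⟨hG0, hB0⟩ := h1 (y := fderiv ℝ u 0) (by
    rw [dist_zero_right]
    exact ((norm_fst_le (jt u 0).2).trans (norm_snd_le (jt u 0))).trans_lt hj)
  exact ⟨ε, u, c, hε, hu, hG0, hB0, hF⟩

theorem main [FiniteDimensional ℝ E] (hMA : MA) (b : Basis ι ℝ E) (hJ : J * J = -1)
    (hs : ∀ r : E →L[ℝ] E →L[ℝ] E, (∀ u v, r u v = r v u) → ∑ i, r (b i) (J (b i)) = 0)
    {θ : E → E →L[ℝ] E} (hθ : Sm θ 0) (h0 : θ 0 = 1) {η : ℝ} (hη : 0 < η) :
    ∃ (f g : E → E) (B M : E → E →L[ℝ] E) (c : E), Sm f 0 ∧ Sm g 0 ∧ Sm B 0 ∧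
      Sm M 0 ∧ f 0 = 0 ∧ g 0 = 0 ∧ (∀ᶠ x in 𝓝 (0 : E), g (f x) = x) ∧ ‖B 0‖ < η ∧
      ∀ᶠ w in 𝓝 (0 : E), (∀ u, M w (J u) = J (M w u)) ∧ Function.Injective (M w) ∧
        (∀ u, B w (J u) = -J (B w u)) ∧ (∀ u, u + B w u = M w (θ (g w) (fderiv ℝ g w u))) ∧
        ∑ i, fderiv ℝ B w (b i) (b i) = c := by
  obtain ⟨θ', hθ', he⟩ := glob hθ
  have h0' : θ' 0 = 1 := he.self_of_nhds.trans h0
  obtain ⟨ε, u, c, hε, hu, hG0, hB0, hF⟩ := solve hMA b hJ hθ' h0' hη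
  have hft : ∀ x, ContDiffAt ℝ ∞ u x →
      fderiv ℝ (fun x => x + u x - u 0) x = 1 + fderiv ℝ u x := fun x hx =>
    (((hasFDerivAt_id x).add (hx.differentiableAt (by simp)).hasFDerivAt).sub_const (u 0)).fderiv
  have hf : Sm (fun x => x + u x - u 0) 0 :=
    hu.mono fun x hx => (contDiffAt_id.add hx).sub contDiffAt_const
  obtain ⟨g, hg, hg0, hgf, hdg⟩ := inv_loc hf (by simp)
    (by rw [hft 0 hu.self_of_nhds]; exact hG0.1)
  have tg : Tendsto g (𝓝 0) (𝓝 0) := by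
    have := (show ContDiffAt ℝ ∞ g 0 from hg.self_of_nhds).continuousAt.tendsto
    rwa [hg0] at this
  have ts : ∀ t : ℝ, Tendsto (fun x : E => t • x) (𝓝 0) (𝓝 0) := fun t => by
    simpa using (continuous_const_smul t).tendsto (0 : E)
  have hT : ContDiff ℝ ∞ fun x : E => θ' (ε • x) := hθ'.comp (contDiff_id.const_smul ε)
  have hp : ∀ᶠ w in 𝓝 (0 : E), ContDiffAt ℝ ∞ (fun w => (θ' (ε • g w), fderiv ℝ u (g w))) w := by
    filter_upwards [hg, tg.eventually hu] with w h2 h3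
    exact (hT.contDiffAt.comp w h2).prodMk ((cd_fderiv h3).comp w h2)
  have hG : ∀ᶠ w in 𝓝 (0 : E), Gd J (θ' (ε • g w), fderiv ℝ u (g w)) :=
    hp.self_of_nhds.continuousAt.eventually (Gd.ev (by simpa [hg0, h0'] using hG0))
  refine ⟨fun x => ε⁻¹ • x + u (ε⁻¹ • x) - u 0, fun w => ε • g w,
    fun w => Ps J (θ' (ε • g w), fderiv ℝ u (g w)),
    fun w => ε⁻¹ • Mu J (θ' (ε • g w), fderiv ℝ u (g w)), (-1 / 2 : ℝ) • c,
    ((ts ε⁻¹).eventually hf).mono fun x hx => hx.comp x (contDiffAt_id.const_smul _),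
    hg.mono fun w hw => hw.const_smul ε,
    (hp.and hG).mono fun w hw => ContDiffAt.comp (g := Ps J) w hw.2.cd_Ps hw.1,
    (hp.and hG).mono fun w hw => (ContDiffAt.comp (g := Mu J) w hw.2.cd_Mu hw.1).const_smul _,
    by simp, by simp [hg0], ((ts ε⁻¹).eventually hgf).mono fun x hx => ?_,
    by simpa [hg0, h0'] using hB0, ?_⟩
  · show ε • g _ = x
    rw [hx, smul_inv_smul₀ hε]
  filter_upwards [hG, hg, hdg, tg.eventually hu, tg.eventually hF,
    ((ts ε).comp tg).eventually he] with w h2 h3 h4 h5 h6 h7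
  rw [hft _ h5] at h4
  refine ⟨fun v => ?_, ?_, fun v => ?_, fun v => ?_, ?_⟩
  · rw [smul_apply, smul_apply, map_smul]
    exact congrArg (ε⁻¹ • ·) (DFunLike.congr_fun (Mu_comm hJ _) v)
  · refine (smul_right_injective _ (inv_ne_zero hε)).comp
      (Function.LeftInverse.injective (g := Lp J (Sq (θ' (ε • g w), fderiv ℝ u (g w))))
        fun v => ?_)
    exact DFunLike.congr_fun (Ring.mul_inverse_cancel _ h2.2) v
  · exact DFunLike.congr_fun (Ps_anti hJ _) v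
  · have h8 : fderiv ℝ (fun w => ε • g w) w = ε • fderiv ℝ g w :=
      ((h3.differentiableAt (by simp)).hasFDerivAt.const_smul ε).fderiv
    have h9 : θ' (ε • g w) = θ (ε • g w) := h7
    refine (DFunLike.congr_fun h2.one_add v).trans ?_
    rw [h8, h4, ← h9, smul_apply, smul_apply, map_smul, map_smul, inv_smul_smul₀ hε]
    rfl
  · rw [← h6]
    exact dv_eq b hs (T := fun x => θ' (ε • x)) hT.contDiffAt h5 h3 h4 h2

end Gauge

theorem gauge_of (hMA : MA) : GAUGE := fun N _ hθ h0 _ hη =>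
  Gauge.main (J := ContinuousLinearMap.lsmul ℝ ℂ I) hMA (rb N)
    (ContinuousLinearMap.ext fun u => show I • I • u = -u by
      rw [smul_smul, I_mul_I, neg_one_smul]) sum_rb_I hθ h0 hη

end Vale.Agent.P301Z.An
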