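import Mathlib.Analysis.Calculus.FDeriv.Symmetric
import Vale.Agent.P301Z.An.Sk

/-!
# P301Z, block ANA: invariance of the integrability condition
-/

open scoped ContDiff Topology
open Set Filter Complex

noncomputable section

namespace Vale.Agent.P301Z.An

namespace IntA

variable {E E' F F' : Type} [NormedAddCommGroup E] [NormedSpace ℝ E] [NormedAddCommGroup E']
  [NormedSpace ℝ E'] [NormedAddCommGroup F] [NormedSpace ℝ F] [NormedAddCommGroup F']
  [NormedSpace ℝ F']

lemma dif {f : E → E'} {x : E} (h : Sm f x) : DifferentiableAt ℝ f x :=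
  h.self_of_nhds.differentiableAt (by simp)

lemma dif2 {f : E → E'} {x : E} (h : Sm f x) : DifferentiableAt ℝ (fderiv ℝ f) x :=
  (h.self_of_nhds.fderiv_right (m := ∞) le_rfl).differentiableAt (by simp)

lemma symm2 {f : E → E'} {x : E} (h : Sm f x) (u v : E) :
    fderiv ℝ (fderiv ℝ f) x u v = fderiv ℝ (fderiv ℝ f) x v u :=
  (h.self_of_nhds.isSymmSndFDerivAt (by
    rw [minSmoothness_of_isRCLikeNormedField]
    exact WithTop.coe_le_coe.mpr le_top)).eq u v

lemma fd_comp {M : E → F →L[ℝ] F'} {T : E → E' →L[ℝ] F} {x : E} (hM : DifferentiableAt ℝ M x)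
    (hT : DifferentiableAt ℝ T x) (u : E) (v : E') :
    fderiv ℝ (fun y => (M y).comp (T y)) x u v =
      fderiv ℝ M x u (T x v) + M x (fderiv ℝ T x u v) := by
  rw [fderiv_clm_comp hM hT]
  simp [add_comm]

lemma fd_app {M : E → F →L[ℝ] F'} {x : E} (hM : DifferentiableAt ℝ M x) (v : F) :
    HasFDerivAt (fun y => M y v) ((ContinuousLinearMap.apply ℝ F' v).comp (fderiv ℝ M x)) x :=
  (ContinuousLinearMap.apply ℝ F' v).hasFDerivAt.comp x hM.hasFDerivAt

variable [NormedSpace ℂ F'] [IsScalarTower ℝ ℂ F']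

lemma fd_smul {M : E → F →L[ℝ] F'} {x : E} (hM : DifferentiableAt ℝ M x) {v v' : F} {c : ℂ}
    (h : ∀ᶠ y in 𝓝 x, M y v' = c • M y v) (u : E) :
    fderiv ℝ M x u v' = c • fderiv ℝ M x u v := by
  have h1 := ((fd_app hM v).const_smul c).congr_of_eventuallyEq h
  have h2 := (fd_app hM v').unique h1
  exact congrArg (fun L : E →L[ℝ] F' => L u) h2

end IntA

open IntA in
theorem int : INT where
  pull := by
    intro E _ _ _ E' _ _ _ F _ _ _ _ _ θ g w hg hθ hI
    have hc : HasFDerivAt (fun w => θ (g w)) ((fderiv ℝ θ (g w)).comp (fderiv ℝ g w)) w :=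
      (dif hθ).hasFDerivAt.comp w (dif hg).hasFDerivAt
    have key : ∀ u v, dd (fderiv ℝ (fun w => (θ (g w)).comp (fderiv ℝ g w)) w) u v =
        dd (fderiv ℝ θ (g w)) (fderiv ℝ g w u) (fderiv ℝ g w v) := by
      intro u v
      rw [dd, dd, fd_comp hc.differentiableAt (dif2 hg), fd_comp hc.differentiableAt (dif2 hg),
        hc.fderiv, symm2 hg u v]
      simp
    intro u u' v v' hu hv
    rw [key, key, key, key]
    exact hI _ _ _ _ hu hv
  mul := by
    intro E _ _ _ F _ _ _ _ _ F' _ _ _ _ _ θ M x hθ hM hinj hlin hI u u' v v' hu hv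
    have h0 := hlin.self_of_nhds
    have hu1 : θ x u' = I • θ x u := hinj (by rw [h0]; exact hu)
    have hv1 : θ x v' = I • θ x v := hinj (by rw [h0]; exact hv)
    have hD : ∀ a b, fderiv ℝ M x a (I • b) = I • fderiv ℝ M x a b := fun a b =>
      fd_smul (dif hM) (hlin.mono fun y hy => hy b) a
    have h1 := congrArg (M x) (hI u u' v v' hu1 hv1)
    simp only [dd, map_add, map_sub, h0, map_zero] at h1
    simp only [dd, fd_comp (dif hM) (dif hθ), hu1, hv1, hD]
    simp only [smul_sub, smul_add, smul_smul, I_mul_I, neg_one_smul] at h1 ⊢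
    rw [← h1]
    abel
  bel := by
    intro F _ _ _ _ _ θ B x hB hev hI a c
    obtain ⟨hA, hθ⟩ := hev.self_of_nhds
    have hfd : fderiv ℝ θ x = fderiv ℝ B x := by
      have h1 : θ =ᶠ[𝓝 x] fun y => ContinuousLinearMap.id ℝ F + B y := by
        filter_upwards [hev] with y hy
        ext u
        simp [← hy.2 u]
      rw [h1.fderiv_eq, fderiv_const_add]
    have hD : ∀ p q, fderiv ℝ B x p (I • q) = (-I) • fderiv ℝ B x p q := fun p q =>
      fd_smul (dif hB) (hev.mono fun y hy => by rw [hy.1 q, neg_smul]) p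
    have hT : ∀ p, θ x (I • (p + B x p)) = I • θ x (p - B x p) := by
      intro p
      rw [← hθ, ← hθ, hA, map_add, map_sub]
      simp only [smul_add, smul_sub]
      abel
    have h1 := hI _ _ _ _ (hT a) (hT c)
    rw [hfd] at h1
    simp only [dd] at h1
    generalize hu : a - B x a = u at h1 ⊢
    generalize hu' : I • (a + B x a) = u' at h1 ⊢
    generalize hv : c - B x c = v at h1 ⊢
    generalize hv' : I • (c + B x c) = v' at h1 ⊢
    have e1 : ∀ p, fderiv ℝ B x p v = fderiv ℝ B x p c - fderiv ℝ B x p (B x c) := fun p => by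
      rw [← hv, map_sub]
    have e2 : ∀ p, fderiv ℝ B x p v' = (-I) • (fderiv ℝ B x p c + fderiv ℝ B x p (B x c)) :=
      fun p => by rw [← hv', hD, map_add]
    have e3 : ∀ p, fderiv ℝ B x p u = fderiv ℝ B x p a - fderiv ℝ B x p (B x a) := fun p => by
      rw [← hu, map_sub]
    have e4 : ∀ p, fderiv ℝ B x p u' = (-I) • (fderiv ℝ B x p a + fderiv ℝ B x p (B x a)) :=
      fun p => by rw [← hu', hD, map_add]
    rw [e1 u, e1 u', e2 u, e2 u', e3 v, e3 v', e4 v, e4 v'] at h1
    simp only [smul_sub, smul_add, smul_smul, I_mul_I, neg_neg, one_smul, neg_smul,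
      smul_neg] at h1
    refine smul_right_injective F (two_ne_zero (α := ℂ)) ?_
    simp only [two_smul]
    rw [← sub_eq_zero, ← h1]
    abel

end Vale.Agent.P301Z.An
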