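import Vale.Agent.P301Z.An.Sk
import Mathlib.Analysis.Calculus.BumpFunction.FiniteDimension

/-!
# P301Z, block ANA: existence of smooth solutions and analyticity for elliptic systems
-/

open scoped ContDiff Topology NNReal
open Set Filter Complex Module Metric
open Vale.Agent.P272.K Vale.Agent.P272.K.LIN

noncomputable section

namespace Vale.Agent.P301Z.An

namespace Ma

variable {Q E V : Type} [NormedAddCommGroup Q] [NormedSpace ℝ Q] [NormedAddCommGroup E]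
  [NormedSpace ℝ E] [NormedAddCommGroup V] [NormedSpace ℝ V]

theorem dy_smooth {G : Q × E → V} (hG : ContDiff ℝ ∞ G) : ContDiff ℝ ∞ (Dy G) :=
  ContDiff.fderiv (m := ∞) (f := fun (p : Q × E) y => G (p.1, y))
    (hG.comp (contDiff_fst.fst.prodMk contDiff_snd)) contDiff_snd le_rfl

omit [NormedAddCommGroup Q] [NormedSpace ℝ Q] in
theorem dy_zero {G : Q × E → V} {R : ℝ} (h : ∀ q x, R ≤ ‖x‖ → G (q, x) = 0) (q : Q) (x : E)
    (hx : R + 1 ≤ ‖x‖) : Dy G (q, x) = 0 := by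
  have h1 : (fun y => G (q, y)) =ᶠ[𝓝 x] fun _ => 0 :=
    ((continuous_norm.tendsto x).eventually_const_lt (by linarith : R < ‖x‖)).mono fun y hy =>
      h q y hy.le
  exact h1.fderiv_eq.trans (fderiv_const_apply _)

theorem jt_congr {u v : E → V} {x : E} (h : u =ᶠ[𝓝 x] v) : jt u x = jt v x :=
  Prod.ext h.self_of_nhds (Prod.ext h.fderiv_eq h.fderiv.fderiv_eq)

theorem jt_zero (x : E) : jt (fun _ : E => (0 : V)) x = 0 := by
  simp [jt]

theorem jt_smul {B : E → V} (hB : ContDiff ℝ ∞ B) (ε : ℝ) (x : E) : jt (fun y => B (ε • y)) x =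
    ((jt B (ε • x)).1, ε • (jt B (ε • x)).2.1, ε ^ 2 • (jt B (ε • x)).2.2) := by
  have h1 : fderiv ℝ (fun y => B (ε • y)) = fun y => ε • fderiv ℝ B (ε • y) :=
    funext fun y => fderiv_comp_smul ε
  have h2 : DifferentiableAt ℝ (fun y => fderiv ℝ B (ε • y)) x :=
    (((hB.fderiv_right (m := ∞) le_rfl).comp (contDiff_const_smul ε)).differentiable (by simp)) x
  rw [jt, h1, fderiv_fun_const_smul h2, fderiv_comp_smul (f := fderiv ℝ B), smul_smul, ← sq]
  rfl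

variable [FiniteDimensional ℝ E]

theorem par_jt (hP : PAR) [FiniteDimensional ℝ Q] [FiniteDimensional ℝ V] {G : Q × E → V} {R : ℝ}
    (hG : ContDiff ℝ ∞ G) (h : ∀ q x, R ≤ ‖x‖ → G (q, x) = 0) :
    ∃ A : Q → H E (Jt E V), ContDiff ℝ ∞ A ∧ ∀ q x, A q x = jt (fun y => G (q, y)) x :=
  hP Q E (Jt E V) (fun p => (G p, Dy G p, Dy (Dy G) p)) (R + 1 + 1)
    (hG.prodMk ((dy_smooth hG).prodMk (dy_smooth (dy_smooth hG)))) fun q x hx =>
      Prod.ext (h q x (by linarith)) (Prod.ext (dy_zero h q x (by linarith))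
        (dy_zero (dy_zero h) q x hx))

/-- a cut off function -/
theorem bump {r : ℝ} (hr : 0 < r) : ∃ ψ : E → ℝ, ContDiff ℝ ∞ ψ ∧
    (∀ x ∈ ball (0 : E) r, ∀ᶠ y in 𝓝 x, ψ y = 1) ∧ ∀ x, 2 * r ≤ ‖x‖ → ψ x = 0 := by
  let ψ : ContDiffBump (0 : E) := ⟨r, 2 * r, hr, by linarith⟩
  exact ⟨ψ, ψ.contDiff, fun x hx => ψ.eventuallyEq_one_of_mem_ball hx, fun x hx =>
    ψ.zero_of_le_dist (by rwa [dist_zero_right])⟩

theorem glob {B : E → V} (hB : Sm B 0) : ∃ B', ContDiff ℝ ∞ B' ∧ B' =ᶠ[𝓝 0] B := by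
  obtain ⟨ρ, hρ, h⟩ := Metric.eventually_nhds_iff_ball.1 hB
  obtain ⟨ψ, h1, h2, h3⟩ := bump (E := E) (r := ρ / 4) (by positivity)
  refine ⟨fun y => ψ y • B y, contDiff_iff_contDiffAt.2 fun y => ?_,
    (h2 0 (mem_ball_self (by positivity))).mono fun y hy => by simp only [hy, one_smul]⟩
  by_cases hy : y ∈ ball (0 : E) ρ
  · exact h1.contDiffAt.smul (h y hy)
  · rw [mem_ball_zero_iff, not_lt] at hy
    refine (contDiffAt_const (c := 0)).congr_of_eventuallyEq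
      (((continuous_norm.tendsto y).eventually_const_lt (by linarith : 2 * (ρ / 4) < ‖y‖)).mono
        fun z hz => ?_)
    simp only [h3 z hz.le, zero_smul]

end Ma

open Ma in
theorem ma_of (hC : CORE) (hP : PAR) : MA := by
  intro E _ _ _ ι _ b V _ _ _ P _ _ _ F hF h0 hD a ha ha0 η hη
  rcases subsingleton_or_nontrivial E with hE | hE
  · refine .of_forall fun ε => ⟨fun _ => 0, F (a (ε, 0), 0), by
      rw [jt_zero]; exact (norm_zero (E := Jt E V)).trans_lt hη,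
      .of_forall fun _ => contDiffAt_const, .of_forall fun x => ?_⟩
    rw [jt_zero, Subsingleton.elim x 0]
  have := FiniteDimensional.complete ℝ V
  obtain ⟨r, δ, χ, hr, hδ, hχ, hχc, hex, hreg⟩ := hC E ι b hE V P F hF h0 hD
  obtain ⟨ψ, hψ, hψ1, hψ0⟩ := bump (E := E) hr
  obtain ⟨A, hA, eA⟩ := hP ℝ E P (fun p => ψ p.2 • a p) (2 * r)
    ((hψ.comp contDiff_snd).smul ha) fun q x hx => by simp only [hψ0 x hx, zero_smul]
  have hA0 : Tendsto A (𝓝 0) (𝓝 0) :=
    hA.continuous.tendsto' 0 0 (Hol.ext fun x => by rw [eA, ha0, smul_zero]; rfl)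
  filter_upwards [hA0.eventually (hex _ (lt_min hη hδ)), hA0.eventually (ball_mem_nhds 0 hδ)]
    with ε ⟨h, c, h1, h2, h3⟩ h4
  refine ⟨fun x => (h x).1, c, ?_, ?_, ?_⟩
  · rw [h2.eq]
    exact (h.norm_apply_le 0).trans_lt (h1.trans_le (min_le_left _ _))
  · obtain ⟨T, hT, eT⟩ := hreg (A ε) h c (mem_ball_zero_iff.1 h4) (h1.trans_le (min_le_right _ _))
      h2 h3
    obtain ⟨R, hR⟩ := hχc.isCompact.isBounded.subset_ball 0
    have hg : ContDiff ℝ ∞ fun p : E × E => p.2 + χ p.2 • p.1 :=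
      contDiff_snd.add ((hχ.comp contDiff_snd).smul contDiff_fst)
    obtain ⟨A', hA', eA'⟩ := hP E E P
      (fun p => ψ (p.2 + χ p.2 • p.1) • a (ε, p.2 + χ p.2 • p.1)) (max R (2 * r))
      ((hψ.comp hg).smul (ha.comp (contDiff_const.prodMk hg))) fun q x hx => by
        have k : χ x = 0 := image_eq_zero_of_notMem_tsupport fun k =>
          (mem_ball_zero_iff.1 (hR k)).not_ge ((le_max_left _ _).trans hx)
        simp only [k, zero_smul, add_zero, hψ0 x ((le_max_right _ _).trans hx)]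
    have k1 : ContDiff ℝ ∞ fun τ => (τ, A' τ) := contDiff_id.prodMk hA'
    have k2 : Tendsto (fun τ => (τ, A' τ)) (𝓝 0) (𝓝 (0, A ε)) :=
      k1.continuous.tendsto' 0 _ (Prod.ext rfl (Hol.ext fun x => by
        simp only [eA, eA', smul_zero, add_zero]))
    filter_upwards [k2.eventually hT.eventually_analyticAt, eT.eventually_nhds] with y k3 k4
    exact (k3.contDiffAt.comp y k1.contDiffAt).congr_of_eventuallyEq
      (k4.mono fun τ k => k (A' τ) fun x => by rw [eA, eA'])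
  · filter_upwards [ball_mem_nhds 0 hr] with x hx
    rw [h2.eq, ← h3 x hx, eA, (hψ1 x hx).self_of_nhds, one_smul]

open Ma in
theorem mb_of (hC : CORE) (hP : PAR) : MB := by
  intro E _ _ _ ι _ b V _ _ _ F hF h0 hD hom
  rcases subsingleton_or_nontrivial E with hE | hE
  · exact ⟨1, one_pos, fun B _ _ _ => (analyticAt_const (v := B 0)).congr
      (.of_forall fun x => congrArg B (Subsingleton.elim _ _))⟩
  obtain ⟨r, δ, χ, hr, hδ, -, -, -, hreg⟩ := hC E ι b hE V ℝ (fun p => F p.2)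
    (hF.comp_of_eq analyticAt_snd rfl) h0 hD
  obtain ⟨ψ, hψ, hψ1, hψ0⟩ := bump (E := E) hr
  obtain ⟨A₁, hA₁, e₁⟩ := par_jt hP (G := fun p : V × E => ψ p.2 • p.1) (R := 2 * r)
    ((hψ.comp contDiff_snd).smul contDiff_fst) fun q x hx => by simp only [hψ0 x hx, zero_smul]
  have hA0 : Tendsto A₁ (𝓝 0) (𝓝 0) := hA₁.continuous.tendsto' 0 0 (Hol.ext fun x => by
    simp only [e₁, smul_zero, jt_zero, Hol.zero_apply])
  obtain ⟨δ', hδ', h1⟩ := Metric.eventually_nhds_iff_ball.1 (hA0.eventually (ball_mem_nhds 0 hδ))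
  refine ⟨δ', hδ', fun B hB hB0 hFB => ?_⟩
  obtain ⟨B', hB', eB⟩ := glob hB
  have hG : ContDiff ℝ ∞ fun p : ℝ × E => ψ p.2 • B' (p.1 • p.2) :=
    (hψ.comp contDiff_snd).smul (hB'.comp (contDiff_fst.smul contDiff_snd))
  obtain ⟨A₂, hA₂, e₂⟩ := par_jt hP (R := 2 * r) hG fun q x hx => by simp only [hψ0 x hx, zero_smul]
  have h2 : Tendsto A₂ (𝓝 0) (𝓝 (A₁ (B 0))) := hA₂.continuous.tendsto' 0 _ (Hol.ext fun x => by
    simp only [e₁, e₂, zero_smul, eB.self_of_nhds])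
  obtain ⟨ρ, hρ, h3⟩ := Metric.eventually_nhds_iff_ball.1 (hFB.and eB.eventuallyEq_nhds)
  obtain ⟨ε, ⟨k1, k2⟩, k3⟩ := ((((h2.eventually (isOpen_ball.mem_nhds
    (h1 _ (mem_ball_zero_iff.2 hB0)))).and (ball_mem_nhds (0 : ℝ) (div_pos hρ hr))).filter_mono
      nhdsWithin_le_nhds).and (self_mem_nhdsWithin (a := (0 : ℝ)) (s := {0}ᶜ))).exists
  have hε : ε ≠ 0 := k3
  obtain ⟨T, hT, eT⟩ := hreg 0 (A₂ ε) 0 (by rwa [norm_zero]) (mem_ball_zero_iff.1 k1)
    (funext (e₂ ε) ▸ isJet_jt (hG.comp (contDiff_const.prodMk contDiff_id))) fun x hx => by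
      have k4 : ε • x ∈ ball (0 : E) ρ := by
        rw [mem_ball_zero_iff, norm_smul]
        exact (mul_le_mul_of_nonneg_left (mem_ball_zero_iff.1 hx).le (norm_nonneg _)).trans_lt
          ((lt_div_iff₀ hr).1 (mem_ball_zero_iff.1 k2))
      rw [e₂, jt_congr (v := fun y => B' (ε • y)) ((hψ1 x hx).mono fun y hy => by
        simp only [hy, one_smul]), jt_smul hB', hom, jt_congr (h3 _ k4).2, (h3 _ k4).1, smul_zero]
  have h4 : AnalyticAt ℝ (fun z : E => ε⁻¹ • z) 0 := analyticAt_id.const_smul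
  have h5 : Tendsto (fun z : E => ε⁻¹ • z) (𝓝 0) (𝓝 0) := by simpa using h4.continuousAt.tendsto
  refine (hT.comp_of_eq (h4.prod (analyticAt_const (v := 0))) (by simp)).congr ?_
  filter_upwards [h5.eventually (eT.and (hψ1 0 (mem_ball_self hr))), eB] with z k4 k5
  refine (k4.1 0 fun _ => rfl).symm.trans ?_
  rw [e₂, ← k5]
  simp only [jt, k4.2, one_smul, smul_inv_smul₀ hε]

end Vale.Agent.P301Z.An
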