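import Vale.Agent.P301Z.An.Sk

/-!
# P301Z, block ANA: the theorem of Newlander and Nirenberg from the steps of Malgrange
-/

open scoped ContDiff Topology
open Set Filter Complex Module
open Vale.Agent.P272.K

noncomputable section

namespace Vale.Agent.P301Z.An

namespace Nn

variable {E V X Y : Type} [NormedAddCommGroup E] [NormedSpace ℝ E] [NormedAddCommGroup V]
  [NormedSpace ℝ V] [NormedAddCommGroup X] [NormedSpace ℝ X] [NormedAddCommGroup Y]
  [NormedSpace ℝ Y]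

theorem ev {f : E → V} {x : E} (h : Sm f x) : ∀ᶠ y in 𝓝 x, Sm f y :=
  eventually_eventually_nhds.2 h

theorem cont {f : E → V} {x : E} (h : Sm f x) : ContinuousAt f x := h.self_of_nhds.continuousAt

theorem has {f : E → V} {x : E} (h : Sm f x) : HasFDerivAt f (fderiv ℝ f x) x :=
  (h.self_of_nhds.differentiableAt (by simp)).hasFDerivAt

theorem comp {g : V → X} {f : E → V} {x : E} (hg : Sm g (f x)) (hf : Sm f x) :
    Sm (fun y => g (f y)) x := by
  filter_upwards [hf, (cont hf).eventually hg] with y h1 h2 using h2.comp y h1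

theorem der {f : E → V} {x : E} (h : Sm f x) : Sm (fderiv ℝ f) x :=
  h.mono fun _ hy => hy.fderiv_right (m := ∞) le_rfl

theorem clm {A : E → X →L[ℝ] Y} {B : E → V →L[ℝ] X} {x : E} (hA : Sm A x) (hB : Sm B x) :
    Sm (fun y => (A y).comp (B y)) x := by
  filter_upwards [hA, hB] with y h1 h2 using h1.clm_comp h2

theorem of_cd {f : E → V} (h : ContDiff ℝ ∞ f) (x : E) : Sm f x :=
  Eventually.of_forall fun _ => h.contDiffAt

theorem of_an [CompleteSpace V] {f : E → V} {x : E} (h : AnalyticAt ℝ f x) : Sm f x :=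
  h.eventually_analyticAt.mono fun _ hy => hy.contDiffAt

theorem inv_der {f : E → V} {g : V → E} {x : E} (hf : Sm f x) (hg : Sm g (f x))
    (h : ∀ᶠ y in 𝓝 x, g (f y) = y) (u : E) : fderiv ℝ g (f x) (fderiv ℝ f x u) = u := by
  have h1 : HasFDerivAt (fun y => g (f y)) _ x := (has hg).comp x (has hf)
  have h2 : HasFDerivAt (fun y => g (f y)) (ContinuousLinearMap.id ℝ E) x :=
    (hasFDerivAt_id x).congr_of_eventuallyEq h
  exact congrArg (fun T : E →L[ℝ] E => T u) (h1.unique h2)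

theorem symm_I {F G : Type} [NormedAddCommGroup F] [NormedSpace ℝ F] [NormedSpace ℂ F]
    [NormedAddCommGroup G] [NormedSpace ℝ G] [NormedSpace ℂ G] (e : F ≃L[ℝ] G)
    (he : ∀ u, e (I • u) = I • e u) (u : G) : e.symm (I • u) = I • e.symm u :=
  e.injective (by rw [he, e.apply_symm_apply, e.apply_symm_apply])

end Nn

open Nn

theorem nn0_of (hG : GAUGE) (hI : INT) (hE : ELL) (hA : AF) : NN0 := by
  intro N θ hθ h0 hint
  obtain ⟨δ, hδ, hE⟩ := hE N
  obtain ⟨f, g, B, M, c, hf, hg, hB, hM, f0, g0, hgf, hB0, hev⟩ := hG N θ hθ h0 δ hδ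
  have tg : Tendsto g (𝓝 0) (𝓝 0) := by simpa only [ContinuousAt, g0] using cont hg
  have tf : Tendsto f (𝓝 0) (𝓝 0) := by simpa only [ContinuousAt, f0] using cont hf
  have hbel : ∀ᶠ w in 𝓝 (0 : Cm N), Bel B w := by
    filter_upwards [ev hg, tg.eventually (ev hθ), tg.eventually hint, ev hM, ev hB,
      hev.eventually_nhds] with w h1 h2 h3 h4 h5 h6
    have h7 := hI.pull (Cm N) (Cm N) (Cm N) θ g w h1 h2 h3
    have h8 := hI.mul (Cm N) (Cm N) (Cm N) _ M w (clm (comp h2 h1) (der h1)) h4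
      h6.self_of_nhds.2.1 (h6.mono fun _ hy => hy.1) h7
    exact hI.bel (Cm N) _ B w h5 (h6.mono fun _ hy => ⟨hy.2.2.1, hy.2.2.2.1⟩) h8
  have han := hE B c hB hB0 (by
    filter_upwards [hbel, hev] with w h1 h2 using ⟨h2.2.2.1, h1, h2.2.2.2.2⟩)
  obtain ⟨W, hW, hW0, hWL⟩ := hA N B han (by
    filter_upwards [hbel, hev] with w h1 h2 using ⟨h2.2.2.1, h1⟩)
  have hWs := of_an hW
  obtain ⟨hl, hi, -, -⟩ := hev.self_of_nhds
  let e : Cm N ≃L[ℝ] Cm N :=
    (LinearEquiv.ofInjectiveEndo (M 0 : Cm N →ₗ[ℝ] Cm N) hi).toContinuousLinearEquiv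
  have he : ∀ u, e u = M 0 u := fun _ => rfl
  have key : ∀ᶠ x in 𝓝 (0 : Cm N), ∀ u,
      fderiv ℝ (fun x => e.symm (W (f x))) x u = e.symm (fderiv ℝ W (f x) (fderiv ℝ f x u)) ∧
      fderiv ℝ f x u + B (f x) (fderiv ℝ f x u) = M (f x) (θ x u) := by
    filter_upwards [ev hf, tf.eventually (ev hg), tf.eventually (ev hWs), tf.eventually hev,
      hgf.eventually_nhds] with x h1 h2 h3 h4 h5 u
    have h6 : HasFDerivAt (fun x => e.symm (W (f x))) _ x :=
      e.symm.hasFDerivAt.comp x ((has h3).comp x (has h1))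
    refine ⟨by rw [h6.fderiv]; rfl, ?_⟩
    rw [h4.2.2.2.1, inv_der h1 h2 h5, h5.self_of_nhds]
  refine ⟨fun x => e.symm (W (f x)),
    comp (of_cd e.symm.contDiff _) (comp (f0.symm ▸ hWs) hf), ?_, ?_⟩
  · ext1 u
    obtain ⟨h1, h2⟩ := key.self_of_nhds u
    rw [f0] at h1 h2
    rw [h1, hW0, h2, h0, ← he, e.symm_apply_apply]
  · filter_upwards [key, tf.eventually hWL, tf.eventually hev] with x h1 ⟨L, hL⟩ h2 u u' h3
    rw [(h1 u).1, (h1 u').1, hL, hL, (h1 u).2, (h1 u').2, h3, h2.1, map_smul, symm_I e hl]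

theorem nn_of (hI : INT) (h0 : NN0) : NN := by
  intro E _ _ _ F _ _ _ _ _ θ x₀ hθ hb hint
  have : Module.Finite ℂ F := Module.Finite.of_restrictScalars_finite ℝ ℂ F
  let ι : F ≃L[ℝ] Cm (finrank ℂ F) :=
    ((Module.finBasis ℂ F).equivFun.restrictScalars ℝ).toContinuousLinearEquiv
  have hι : ∀ u, ι (I • u) = I • ι u := fun u => (Module.finBasis ℂ F).equivFun.map_smul I u
  let T : E ≃L[ℝ] F := (LinearEquiv.ofBijective (θ x₀ : E →ₗ[ℝ] F) hb).toContinuousLinearEquiv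
  obtain ⟨A, hA⟩ : ∃ A : E ≃L[ℝ] Cm (finrank ℂ F), ∀ u, A u = ι (θ x₀ u) :=
    ⟨T.trans ι, fun _ => rfl⟩
  obtain ⟨g, hg⟩ : ∃ g : Cm (finrank ℂ F) → E, g = fun y => x₀ + A.symm y := ⟨_, rfl⟩
  obtain ⟨k, hk⟩ : ∃ k : E → Cm (finrank ℂ F), k = fun x => A (x - x₀) := ⟨_, rfl⟩
  have g1 : ContDiff ℝ ∞ g := hg ▸ contDiff_const.add A.symm.contDiff
  have k1 : ContDiff ℝ ∞ k := hk ▸ A.contDiff.comp (contDiff_id.sub contDiff_const)
  have g2 : ∀ y, fderiv ℝ g y = (A.symm : Cm (finrank ℂ F) →L[ℝ] E) := fun y =>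
    hg ▸ (A.symm.hasFDerivAt.const_add x₀).fderiv
  have k2 : ∀ x, HasFDerivAt k (A : E →L[ℝ] Cm (finrank ℂ F)) x := fun x => by
    have h1 := A.hasFDerivAt.comp x ((hasFDerivAt_id x).sub_const x₀)
    rw [ContinuousLinearMap.comp_id] at h1
    exact hk ▸ h1
  have g0 : g 0 = x₀ := by simp [hg]
  have k0 : k x₀ = 0 := by simp [hk]
  have gk : ∀ x, g (k x) = x := fun x => by simp [hg, hk]
  have tg : Tendsto g (𝓝 0) (𝓝 x₀) := g0 ▸ g1.continuous.tendsto 0
  have tk : Tendsto k (𝓝 x₀) (𝓝 0) := k0 ▸ k1.continuous.tendsto x₀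
  have s1 : ∀ y, Sm θ (g y) → Sm (fun w => (θ (g w)).comp (fderiv ℝ g w)) y := fun y hy =>
    clm (comp hy (of_cd g1 y)) (der (of_cd g1 y))
  obtain ⟨W, hW, hW0, hWc⟩ := h0 (finrank ℂ F)
    (fun y => (ι : F →L[ℝ] Cm (finrank ℂ F)).comp ((θ (g y)).comp (fderiv ℝ g y)))
    (clm (of_cd contDiff_const _) (s1 0 (g0.symm ▸ hθ)))
    (by
      ext1 u
      have h1 := hA (A.symm u)
      rw [A.apply_symm_apply] at h1
      rw [g2, g0]
      exact h1.symm)
    (by
      filter_upwards [tg.eventually (ev hθ), tg.eventually hint] with y h1 h2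
      exact hI.mul _ F _ _ (fun _ => (ι : F →L[ℝ] Cm (finrank ℂ F))) y (s1 y h1)
        (of_cd contDiff_const _) ι.injective (Eventually.of_forall fun _ => hι)
        (hI.pull E _ F θ g y (of_cd g1 y) h1 h2))
  have key : ∀ᶠ x in 𝓝 x₀, ∀ u,
      fderiv ℝ (fun x => ι.symm (W (k x))) x u = ι.symm (fderiv ℝ W (k x) (A u)) := by
    filter_upwards [tk.eventually (ev hW)] with x h1 u
    have h2 : HasFDerivAt (fun x => ι.symm (W (k x))) _ x :=
      ι.symm.hasFDerivAt.comp x ((has h1).comp x (k2 x))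
    rw [h2.fderiv]
    rfl
  refine ⟨fun x => ι.symm (W (k x)),
    comp (of_cd ι.symm.contDiff _) (comp (k0.symm ▸ hW) (of_cd k1 _)), ?_, ?_⟩
  · ext1 u
    rw [key.self_of_nhds u, k0, hW0, ContinuousLinearMap.id_apply, hA, ι.symm_apply_apply]
  · filter_upwards [key, tk.eventually hWc] with x h1 h2 u u' h3
    rw [h1, h1, h2 (A u) (A u') ?_, symm_I ι hι]
    show ι (θ (g (k x)) (fderiv ℝ g (k x) (A u'))) = I • ι (θ (g (k x)) (fderiv ℝ g (k x) (A u)))
    rw [gk, g2]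
    show ι (θ x (A.symm (A u'))) = I • ι (θ x (A.symm (A u)))
    rw [A.symm_apply_apply, A.symm_apply_apply, h3, hι]

end Vale.Agent.P301Z.An
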