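import Vale.Agent.P301Z.An.Sk
import Vale.Agent.P272.K.H.Uniq

/-!
# P301Z, block ANA: the resolvent of the Laplacian in Hoelder spaces
-/

open scoped ContDiff Topology NNReal
open Set Filter Complex Module
open Vale.Agent.P272.K Vale.Agent.P272.K.LIN

noncomputable section

namespace Vale.Agent.P301Z.An

namespace Res

variable {E E' V W : Type} [NormedAddCommGroup E] [NormedSpace ℝ E] [NormedAddCommGroup E']
  [NormedSpace ℝ E'] [NormedAddCommGroup V] [NormedSpace ℝ V] [NormedAddCommGroup W]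
  [NormedSpace ℝ W]

omit [NormedSpace ℝ V] in
theorem hol_comp (L : E' →L[ℝ] E) (f : H E V) (x y : E') :
    ‖f (L x) - f (L y)‖ ≤ ‖L‖ ^ (1 / 2 : ℝ) * ‖f‖ * wt E' x y := by
  refine (f.norm_sub_le' _ _).trans ?_
  rw [coe_wt, coe_wt, ← map_sub, mul_comm _ ‖f‖, mul_assoc,
    ← Real.mul_rpow (norm_nonneg _) (norm_nonneg _)]
  exact mul_le_mul_of_nonneg_left
    (Real.rpow_le_rpow (norm_nonneg _) (L.le_opNorm _) (by norm_num)) (norm_nonneg _)

/-- composition with a linear map -/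
def pull (L : E' →L[ℝ] E) : H E V →L[ℝ] H E' V :=
  LinearMap.mkContinuous
    { toFun := fun f => ⟨fun x => f (L x), ⟨‖f‖, fun _ => f.norm_apply_le _⟩,
        ⟨_, hol_comp L f⟩⟩
      map_add' := fun _ _ => rfl
      map_smul' := fun _ _ => rfl } (1 + ‖L‖ ^ (1 / 2 : ℝ)) fun f => by
    rw [add_mul, one_mul]
    exact Hol.norm_le_of (norm_nonneg _) (by positivity) (fun _ => f.norm_apply_le _)
      (hol_comp L f)

theorem pull_apply (L : E' →L[ℝ] E) (f : H E V) (x : E') : pull L f x = f (L x) := rfl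

/-- composition on both sides -/
def cj (L : E →L[ℝ] E') (m : V →L[ℝ] W) : (E' →L[ℝ] V) →L[ℝ] E →L[ℝ] W :=
  (ContinuousLinearMap.compL ℝ E V W m).comp ((ContinuousLinearMap.compL ℝ E E' V).flip L)

theorem cj_apply (L : E →L[ℝ] E') (m : V →L[ℝ] W) (p : E' →L[ℝ] V) (u : E) :
    cj L m p u = m (p (L u)) := rfl

theorem hasF (L : E →L[ℝ] E') (m : V →L[ℝ] W) {f : E' → V} {p : E' →L[ℝ] V} {x : E}
    (hf : HasFDerivAt f p (L x)) : HasFDerivAt (fun y => m (f (L y))) (cj L m p) x :=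
  m.hasFDerivAt.comp x (hf.comp x L.hasFDerivAt)

/-- transport of jets -/
def tr (L : E →L[ℝ] E') (m : V →L[ℝ] W) : Jt E' V →L[ℝ] Jt E W :=
  m.prodMap ((cj L m).prodMap (cj L (cj L m)))

/-- transport of functions with values in jets -/
def trH (L : E →L[ℝ] E') (m : V →L[ℝ] W) : H E' (Jt E' V) →L[ℝ] H E (Jt E W) :=
  (Hol.map (tr L m)).comp (pull L)

theorem trH_fst (L : E →L[ℝ] E') (m : V →L[ℝ] W) (h : H E' (Jt E' V)) (x : E) :
    (trH L m h x).1 = m (h (L x)).1 := rfl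

theorem isJet_trH (L : E →L[ℝ] E') (m : V →L[ℝ] W) {h : H E' (Jt E' V)} (hh : IsJet h) :
    IsJet (trH L m h) := fun x => ⟨hasF L m (hh (L x)).1, hasF L (cj L m) (hh (L x)).2⟩

theorem op_trH {ι : Type} [Fintype ι] (L : E →L[ℝ] E') (m : V →L[ℝ] W) {b : ι → E}
    {b' : ι → E'} (hb : ∀ i, L (b i) = b' i) (h : H E' (Jt E' V)) (x : E) :
    (trH L m h x).1 - trL b (trH L m h x) = m ((h (L x)).1 - trL b' (h (L x))) := by
  rw [map_sub, trL_apply, trL_apply, map_sum, trH_fst]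
  congr 1
  refine Finset.sum_congr rfl fun i _ => ?_
  rw [← hb]
  rfl

omit [NormedSpace ℝ V] in
theorem cont (f : H E V) : Continuous f := by
  refine continuous_iff_continuousAt.2 fun x => ?_
  refine tendsto_iff_norm_sub_tendsto_zero.2 (squeeze_zero (fun _ => norm_nonneg _)
    (fun y => f.norm_sub_le' y x) ?_)
  have h1 : Continuous fun y : E => ‖f‖ * ‖y - x‖ ^ (1 / 2 : ℝ) :=
    continuous_const.mul ((continuous_id.sub continuous_const).norm.rpow_const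
      fun _ => Or.inr (by norm_num))
  have h2 := h1.tendsto x
  rw [sub_self, norm_zero, Real.zero_rpow (by norm_num), mul_zero] at h2
  exact h2.congr fun y => by rw [coe_wt]

theorem contDiff_fst {h : H E (Jt E V)} (hh : IsJet h) : ContDiff ℝ 2 fun y => (h y).1 := by
  have h1 : ContDiff ℝ 1 fun y => (h y).2.1 :=
    contDiff_one_iff_hasFDerivAt.2 ⟨fun y => (h y).2.2, (cont h).snd.snd, fun y => (hh y).2⟩
  exact (contDiff_succ_iff_hasFDerivAt (n := 1)).2 ⟨_, h1, fun y => (hh y).1⟩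

theorem eq_of_fst {h h' : H E (Jt E V)} (hh : IsJet h) (hh' : IsJet h')
    (e : ∀ x, (h x).1 = (h' x).1) : h = h' :=
  Hol.ext fun x => by rw [← hh.eq x, ← hh'.eq x, funext e]

theorem isJet_add {h h' : H E (Jt E V)} (hh : IsJet h) (hh' : IsJet h') :
    IsJet (h + h' : H E (Jt E V)) := fun x =>
  ⟨(hh x).1.add (hh' x).1, (hh x).2.add (hh' x).2⟩

theorem isJet_smul (c : ℝ) {h : H E (Jt E V)} (hh : IsJet h) :
    IsJet (c • h : H E (Jt E V)) := fun x => ⟨(hh x).1.const_smul c, (hh x).2.const_smul c⟩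

theorem isJet_sum {κ : Type} (s : Finset κ) {h : κ → H E (Jt E V)} (hh : ∀ k, IsJet (h k)) :
    IsJet (∑ k ∈ s, h k : H E (Jt E V)) :=
  Finset.sum_induction h (fun g : H E (Jt E V) => IsJet g) (fun _ _ => isJet_add)
    (fun x => ⟨hasFDerivAt_const 0 x, hasFDerivAt_const 0 x⟩) fun k _ => hh k

section euclid

variable {F ι : Type} [NormedAddCommGroup F] [InnerProductSpace ℝ F] [FiniteDimensional ℝ F]
  [Fintype ι] (b : OrthonormalBasis ι ℝ F)

theorem uniq0 {h h' : H F (Jt F ℝ)} (hh : IsJet h) (hh' : IsJet h')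
    (e : ∀ x, (h x).1 - trL b (h x) = (h' x).1 - trL b (h' x)) : h = h' := by
  have d : ∀ g : H F (Jt F ℝ), IsJet g → ∀ x,
      1 * (g x).1 - ∑ i, fderiv ℝ (fderiv ℝ fun y => (g y).1) x (b i) (b i) =
        (g x).1 - trL b (g x) := fun g hg x => by
    rw [one_mul, trL_apply, ← hg.eq x]
    rfl
  have n : ∀ g : H F (Jt F ℝ), ∀ x, |(g x).1| ≤ ‖g‖ := fun g x =>
    (norm_fst_le (g x)).trans (g.norm_apply_le x)
  have := H.eq_of_op_eq b (contDiff_fst hh) (n h) (contDiff_fst hh') (n h') one_pos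
    fun x => by rw [d h hh, d h' hh', e]
  exact eq_of_fst hh hh' (congrFun this)

theorem exist0 : ∃ C : ℝ, ∀ φ : H F ℝ, ∃ h : H F (Jt F ℝ), ‖h‖ ≤ C * ‖φ‖ ∧ IsJet h ∧
    ∀ x, (h x).1 - trL b (h x) = φ x := by
  borelize F
  obtain ⟨C, hC, hR⟩ := H.resolvent F (a := 1 / 2) (by norm_num) (by norm_num)
  refine ⟨4 * C, fun φ => ?_⟩
  obtain ⟨h1, h2, h3, h4, h5⟩ := hR 1 one_pos φ ‖φ‖ ‖φ‖ (norm_nonneg _)
    ⟨φ.norm_apply_le, fun x y => by rw [← coe_wt]; exact φ.norm_sub_le' x y⟩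
  simp only [Real.one_rpow, one_mul, mul_one] at h2 h3 h4 h5
  have s : ∀ x, ‖jt (H.res 1 φ) x‖ ≤ C * (‖φ‖ + ‖φ‖) := fun x =>
    norm_prod_le_iff.2 ⟨h3.sup x, norm_prod_le_iff.2 ⟨h4.sup x, h5.sup x⟩⟩
  have t : ∀ x y, ‖jt (H.res 1 φ) x - jt (H.res 1 φ) y‖ ≤ C * (‖φ‖ + ‖φ‖) * wt F x y :=
    fun x y => by
      rw [coe_wt]
      exact norm_prod_le_iff.2 ⟨h3.hol x y, norm_prod_le_iff.2 ⟨h4.hol x y, h5.hol x y⟩⟩
  refine ⟨⟨jt (H.res 1 φ), ⟨_, s⟩, ⟨_, t⟩⟩, ?_, fun x => ⟨?_, ?_⟩, fun x => ?_⟩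
  · exact (Hol.norm_le_of (by positivity) (by positivity) s t).trans (le_of_eq (by ring))
  · exact (h1.differentiable (by norm_num) x).hasFDerivAt
  · exact ((h1.fderiv_right (m := 1) (by norm_num)).differentiable (by norm_num) x).hasFDerivAt
  · rw [trL_apply]
    exact h2 ι b x

theorem res0 : ∃ R : H F ℝ →L[ℝ] H F (Jt F ℝ), (∀ φ, IsJet (R φ)) ∧
    ∀ φ x, (R φ x).1 - trL b (R φ x) = φ x := by
  obtain ⟨C, hC⟩ := exist0 b
  choose R h1 h2 h3 using hC
  refine ⟨LinearMap.mkContinuous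
    { toFun := R
      map_add' := fun φ ψ => uniq0 b (h2 _) (isJet_add (h2 φ) (h2 ψ)) fun x => ?_
      map_smul' := fun c φ => uniq0 b (h2 _) (isJet_smul c (h2 φ)) fun x => ?_ } C h1, h2, h3⟩
  · rw [h3, Hol.add_apply, Hol.add_apply, map_add, Prod.fst_add, ← h3 φ, ← h3 ψ]
    ring
  · rw [h3, Hol.smul_apply, Hol.smul_apply, map_smul, Prod.smul_fst, ← h3 φ, smul_sub]
    rfl

end euclid

end Res

open Res in
theorem res : RES := by
  intro E _ _ _ ι _ b V _ _ _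
  classical
  let o := EuclideanSpace.basisFun ι ℝ
  let L : EuclideanSpace ℝ ι ≃L[ℝ] E := (o.toBasis.equiv b (Equiv.refl ι)).toContinuousLinearEquiv
  have hL : ∀ i, (L : EuclideanSpace ℝ ι →L[ℝ] E) (o i) = b i := fun i =>
    o.toBasis.equiv_apply i b (Equiv.refl ι)
  have hL' : ∀ i, (L.symm : E →L[ℝ] EuclideanSpace ℝ ι) (b i) = o i := fun i => by
    rw [← hL]
    exact L.symm_apply_apply _
  let v := Module.finBasis ℝ V
  let c : Fin (finrank ℝ V) → V →L[ℝ] ℝ := fun k => LinearMap.toContinuousLinearMap (v.coord k)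
  obtain ⟨R, h1, h2⟩ := res0 o
  let S : H E V →L[ℝ] H E (Jt E V) := ∑ k,
    (trH (L.symm : E →L[ℝ] EuclideanSpace ℝ ι) (ContinuousLinearMap.toSpanSingleton ℝ (v k))).comp
      (R.comp ((pull (L : EuclideanSpace ℝ ι →L[ℝ] E)).comp (Hol.map (c k))))
  have hS : ∀ φ, S φ = ∑ k, trH (L.symm : E →L[ℝ] EuclideanSpace ℝ ι)
      (ContinuousLinearMap.toSpanSingleton ℝ (v k))
      (R (pull (L : EuclideanSpace ℝ ι →L[ℝ] E) (Hol.map (c k) φ))) := fun φ =>
    _root_.sum_apply _ _ _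
  have j : ∀ φ, IsJet (S φ) := fun φ => by
    rw [hS]
    exact isJet_sum _ fun k => isJet_trH _ _ (h1 _)
  have e : ∀ φ x, (S φ x).1 - trL b (S φ x) = φ x := fun φ x => by
    rw [hS, Hol.sum_apply, map_sum, Prod.fst_sum, ← Finset.sum_sub_distrib, ← v.sum_repr (φ x)]
    refine Finset.sum_congr rfl fun k _ => ?_
    rw [op_trH _ _ hL', h2, pull_apply]
    show v.repr (φ (L (L.symm x))) k • v k = _
    rw [L.apply_symm_apply]
  refine ⟨S, j, e, fun h φ hh he => eq_of_fst hh (j φ) fun x => v.ext_elem fun k => ?_⟩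
  have := uniq0 o (isJet_trH (L : EuclideanSpace ℝ ι →L[ℝ] E) (c k) hh)
    (isJet_trH (L : EuclideanSpace ℝ ι →L[ℝ] E) (c k) (j φ)) fun y => by
      rw [op_trH _ _ hL, op_trH _ _ hL, he, e]
  have h3 : c k (h (L (L.symm x))).1 = c k (S φ (L (L.symm x))).1 :=
    congrArg (fun g : H (EuclideanSpace ℝ ι) (Jt (EuclideanSpace ℝ ι) ℝ) => (g (L.symm x)).1) this
  rwa [L.apply_symm_apply] at h3

end Vale.Agent.P301Z.An
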