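import Vale.Agent.P301Z.An.Core
import Vale.Agent.P301Z.An.Res
import Vale.Agent.P301Z.An.Cut
import Vale.Agent.P301Z.An.Anem
import Vale.Agent.P301Z.An.Comp
import Vale.Agent.P301Z.An.Ma
import Vale.Agent.P301Z.An.Gauge
import Vale.Agent.P301Z.An.Int
import Vale.Agent.P301Z.An.Ell
import Vale.Agent.P301Z.An.Cx
import Vale.Agent.P301Z.An.Af
import Vale.Agent.P301Z.An.Nn
import Vale.Agent.P301Z.An.Cnn

/-!
# P301Z, block ANA: the theorem of Newlander and Nirenberg
-/

namespace Vale.Agent.P301Z.An

theorem core : CORE := core_of res cut anem comp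

theorem ma : MA := ma_of core par

theorem mb : MB := mb_of core par

theorem nn : NN := nn_of int (nn0_of (gauge_of ma) int (ell_of mb) (af_of cx))

theorem nnp : NNP := nnp_of nn

theorem cnn : CNN := cnn_of nnp

end Vale.Agent.P301Z.An
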