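import Vale.Agent.P301Z.An.Sk
import Mathlib.Analysis.Calculus.ImplicitContDiff
import Mathlib.Analysis.Calculus.BumpFunction.FiniteDimension

/-!
# P301Z, block ANA: the implicit function theorem with the translation parameter
-/

open scoped ContDiff Topology NNReal
open Set Filter Module Metric
open Vale.Agent.P272.K Vale.Agent.P272.K.LIN

set_option maxSynthPendingDepth 3
set_option linter.unusedSectionVars false

noncomputable section

namespace Vale.Agent.P301Z.An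

namespace Core

theorem ift {Q Z : Type} [NormedAddCommGroup Q] [NormedSpace ℝ Q] [CompleteSpace Q]
    [NormedAddCommGroup Z] [NormedSpace ℝ Z] [CompleteSpace Z] {G : Q × Z → Z}
    (hG : AnalyticAt ℝ G 0) (h0 : G 0 = 0) {k : Z →L[ℝ] Z} (hk : ‖k‖ < 1)
    (hd : HasFDerivAt (fun z => G (0, z)) (1 - k) 0) :
    ∃ S : Q → Z, AnalyticAt ℝ S 0 ∧ S 0 = 0 ∧ (∀ᶠ q in 𝓝 (0 : Q), G (q, S q) = 0) ∧
      ∀ᶠ v in 𝓝 (0 : Q × Z), G v = 0 → S v.1 = v.2 := by
  have hc : ContDiffAt ℝ ω G 0 := hG.contDiffAt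
  have h1 : HasFDerivAt (fun z : Z => G (0, z))
      (fderiv ℝ G 0 ∘L ContinuousLinearMap.inr ℝ Q Z) 0 :=
    HasFDerivAt.comp (g := G) (f := fun z : Z => ((0 : Q), z)) (0 : Z)
      hG.differentiableAt.hasFDerivAt (hasFDerivAt_prodMk_right 0 0)
  have hi : (fderiv ℝ G 0 ∘L ContinuousLinearMap.inr ℝ Q Z).IsInvertible := by
    rw [h1.unique hd]
    exact ⟨ContinuousLinearEquiv.ofUnit (Units.oneSub k hk), rfl⟩
  have hω : (ω : WithTop ℕ∞) ≠ 0 := by simp
  refine ⟨hc.implicitFunction hω hi, (hc.contDiffAt_implicitFunction hω hi).analyticAt,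
    hc.implicitFunction_apply_self hω hi, ?_, ?_⟩
  · have := hc.eventually_apply_implicitFunction hω hi
    rw [h0] at this
    exact this
  · filter_upwards [hc.eventually_apply_eq_iff_implicitFunction hω hi] with v hv h
    exact hv.1 (h.trans h0.symm)

variable {Y : Type} {w : Y → Y → ℝ≥0} {A B : Type} [NormedAddCommGroup A] [NormedSpace ℝ A]
  [NormedAddCommGroup B] [NormedSpace ℝ B]

/-- a pair of functions -/
def pr : (Hol w A × Hol w B) →L[ℝ] Hol w (A × B) :=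
  (Hol.map (ContinuousLinearMap.inl ℝ A B)).coprod (Hol.map (ContinuousLinearMap.inr ℝ A B))

theorem pr_apply (f : Hol w A) (g : Hol w B) (x : Y) : pr (f, g) x = (f x, g x) := by
  show ((f x, (0 : B)) : A × B) + (0, g x) = _
  simp

variable {E V P J Cc : Type} [NormedAddCommGroup E] [NormedSpace ℝ E] [CompleteSpace E]
  [NormedAddCommGroup V] [NormedSpace ℝ V] [CompleteSpace V] [NormedAddCommGroup P]
  [NormedSpace ℝ P] [CompleteSpace P] [NormedAddCommGroup J] [NormedSpace ℝ J]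
  [NormedAddCommGroup Cc] [NormedSpace ℝ Cc]

theorem setup {fs tl : J →L[ℝ] V} {R : H E V →L[ℝ] H E J} (R2 : ∀ φ x, fs (R φ x) - tl (R φ x) = φ x)
    {x₁ : E} {κ : E → ℝ} {K : H E J →L[ℝ] H E V}
    (K1 : ∀ h x, K h x = κ x • (fs (h x) - fs (h x₁))) (hk : ‖K.comp R‖ < 1)
    {F : P × J → V} (h0 : F 0 = 0) (hD : HasFDerivAt (fun j => F (0, j)) tl 0)
    {JI : Cc × J → J} (J2 : ∀ j, JI (0, j) = j) (D : E →L[ℝ] H E Cc)
    {N : H E (P × Cc × J) → H E V} (N1 : AnalyticAt ℝ N 0)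
    (N2 : ∀ᶠ h in 𝓝 (0 : H E (P × Cc × J)), ∀ x, N h x = F ((h x).1, JI (h x).2) - tl (h x).2.2) :
    ∃ (G : (E × H E P × H E V) × H E V → H E V) (S : E × H E P × H E V → H E V),
      ContinuousAt G 0 ∧ G 0 = 0 ∧ AnalyticAt ℝ S 0 ∧ S 0 = 0 ∧
      (∀ᶠ q in 𝓝 (0 : E × H E P × H E V), G (q, S q) = 0) ∧
      ∀ᶠ v in 𝓝 (0 : (E × H E P × H E V) × H E V), (G v = 0 → S v.1 = v.2) ∧ ∀ x,
        G v x = fs (R v.2 x) - κ x • (fs (R v.2 x) - fs (R v.2 x₁)) -
          F (v.1.2.1 x, JI (D v.1.1 x, R v.2 x)) - v.1.2.2 x := by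
  let Φ : P × Cc × J → V := fun p => F (p.1, JI p.2) - tl p.2.2
  let A : ((E × H E P × H E V) × H E V) →L[ℝ] H E (P × Cc × J) :=
    pr.comp ((((ContinuousLinearMap.fst ℝ _ _).comp (ContinuousLinearMap.snd ℝ _ _)).comp
      (ContinuousLinearMap.fst ℝ _ _)).prod (pr.comp
        (((D.comp (ContinuousLinearMap.fst ℝ _ _)).comp (ContinuousLinearMap.fst ℝ _ _)).prod
          (R.comp (ContinuousLinearMap.snd ℝ _ _)))))
  have A1 : ∀ v x, A v x = (v.1.2.1 x, D v.1.1 x, R v.2 x) := fun v x => by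
    show pr (v.1.2.1, pr (D v.1.1, R v.2)) x = _
    rw [pr_apply, pr_apply]
  let G : (E × H E P × H E V) × H E V → H E V := fun v => v.2 - K (R v.2) - N (A v) - v.1.2.2
  have NA : AnalyticAt ℝ (fun v => N (A v)) 0 := N1.comp_of_eq (A.analyticAt 0) (map_zero A)
  have hG : AnalyticAt ℝ G 0 :=
    ((analyticAt_snd.sub (((K.comp R).analyticAt _).comp analyticAt_snd)).sub NA).sub
      (analyticAt_snd.comp (analyticAt_snd.comp analyticAt_fst))
  have good : ∀ᶠ v in 𝓝 (0 : (E × H E P × H E V) × H E V), ∀ x, N (A v) x = Φ (A v x) := by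
    have : Tendsto A (𝓝 0) (𝓝 0) := by
      have := A.continuous.tendsto 0
      rwa [map_zero] at this
    exact this.eventually N2
  have val : ∀ v, (∀ x, N (A v) x = Φ (A v x)) → ∀ x, G v x = fs (R v.2 x) -
      κ x • (fs (R v.2 x) - fs (R v.2 x₁)) - F (v.1.2.1 x, JI (D v.1.1 x, R v.2 x)) - v.1.2.2 x := by
    intro v hv x
    show v.2 x - K (R v.2) x - N (A v) x - v.1.2.2 x = _
    rw [hv, K1, A1, ← R2 v.2 x]
    show _ - _ - (F _ - tl (R v.2 x)) - _ = _
    abel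
  have G0 : G 0 = 0 := by
    refine Hol.coe_injective (funext fun x => ?_)
    show G 0 x = 0
    rw [val 0 good.self_of_nhds]
    have e1 : ∀ y, R (0 : (E × H E P × H E V) × H E V).2 y = 0 := fun y => by
      rw [Prod.snd_zero, map_zero]; rfl
    have e2 : D (0 : (E × H E P × H E V) × H E V).1.1 x = 0 := by
      rw [Prod.fst_zero, Prod.fst_zero, map_zero]; rfl
    rw [e1, e1, e2, J2]
    show fs 0 - κ x • (fs 0 - fs 0) - F 0 - 0 = 0
    rw [h0]; simp
  have hd : HasFDerivAt (fun z => G (0, z)) (1 - K.comp R) 0 := by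
    have h1 : HasFDerivAt (fun z : H E V => N (A (0, z)))
        (fderiv ℝ (fun v => N (A v)) 0 ∘L ContinuousLinearMap.inr ℝ _ _) 0 :=
      HasFDerivAt.comp (g := fun v => N (A v))
        (f := fun z : H E V => ((0 : E × H E P × H E V), z)) (0 : H E V)
        NA.differentiableAt.hasFDerivAt (hasFDerivAt_prodMk_right 0 0)
    set L := fderiv ℝ (fun v => N (A v)) 0 ∘L ContinuousLinearMap.inr ℝ _ _ with hL
    have h2 : L = 0 := by
      ext1 z
      refine Hol.coe_injective (funext fun x => ?_)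
      have h3 := (Hol.evalL x).hasFDerivAt.comp (0 : H E V) h1
      let ev : H E V →L[ℝ] J := (Hol.evalL x).comp R
      have h4 : HasFDerivAt (fun z => F (0, ev z) - tl (ev z))
          ((tl).comp ev - (tl).comp ev) 0 := by
        refine HasFDerivAt.sub ?_ ((tl).comp ev).hasFDerivAt
        refine HasFDerivAt.comp (g := fun j => F (0, j)) (0 : H E V) ?_ ev.hasFDerivAt
        rw [map_zero]; exact hD
      have h5 : Tendsto (fun z : H E V => ((0 : E × H E P × H E V), z)) (𝓝 0) (𝓝 0) :=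
        (continuous_const.prodMk continuous_id).tendsto 0
      have h6 : (Hol.evalL x ∘ fun z : H E V => N (A (0, z))) =ᶠ[𝓝 0]
          fun z => F (0, ev z) - tl (ev z) := by
        filter_upwards [h5.eventually good] with z hz
        show N (A (0, z)) x = _
        rw [hz, A1]
        have e2 : D (0 : E × H E P × H E V).1 x = 0 := by
          rw [Prod.fst_zero, map_zero]; rfl
        show F (_, JI (D (0 : E × H E P × H E V).1 x, R z x)) - _ = _
        rw [e2, J2]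
        rfl
      have h7 := h3.unique (h4.congr_of_eventuallyEq h6)
      rw [sub_self] at h7
      exact congrArg (fun T : H E V →L[ℝ] V => T z) h7
    rw [h2] at h1
    have h8 := (((hasFDerivAt_id (0 : H E V)).sub (K.comp R).hasFDerivAt).sub h1).sub
      (hasFDerivAt_const (0 : H E V) (0 : H E V))
    rw [sub_zero, sub_zero] at h8
    exact h8
  obtain ⟨S, S1, S0, S2, S3⟩ := ift hG G0 hk hd
  exact ⟨G, S, hG.continuousAt, G0, S1, S0, S2, S3.and (good.mono val)⟩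

theorem main {fs tl : J →L[ℝ] V} {IsJ : H E J → Prop} {R : H E V →L[ℝ] H E J} (R1 : ∀ φ, IsJ (R φ))
    (R3 : ∀ (h : H E J) (φ : H E V), IsJ h → (∀ x, fs (h x) - tl (h x) = φ x) → h = R φ)
    {r : ℝ} (hr : 0 < r) {x₁ : E} (hx₁ : r / 2 < ‖x₁‖) {κ : E → ℝ}
    (κ1 : ∀ x ∈ ball (0 : E) r, κ x = 1) {β : E → ℝ} (β0 : β 0 = 1)
    (β1 : ∀ x, r / 2 ≤ ‖x‖ → β x = 0) (β2 : ∀ x, ‖β x‖ ≤ 1) {F : P × J → V} {JI : Cc × J → J}
    (J2 : ∀ j, JI (0, j) = j) {D : E →L[ℝ] H E Cc} {C : ℝ} (hC0 : 0 < C)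
    (J4 : ∀ᶠ τ in 𝓝 (0 : E),
      (∀ a : H E P, ∃ a' : H E P, ‖a'‖ ≤ C * ‖a‖ ∧ ∀ x, a' x = a (x + β x • τ)) ∧
      ∀ h : H E J, IsJ h → ∃ h' : H E J, IsJ h' ∧ ‖h'‖ ≤ C * ‖h‖ ∧
        ∀ x, fs (h' x) = fs (h (x + β x • τ)) ∧ h (x + β x • τ) = JI (D τ x, h' x))
    {G : (E × H E P × H E V) × H E V → H E V} {S : E × H E P × H E V → H E V}
    (hG : ContinuousAt G 0) (G0 : G 0 = 0) (S1 : AnalyticAt ℝ S 0) (S0 : S 0 = 0)
    (S2 : ∀ᶠ q in 𝓝 (0 : E × H E P × H E V), G (q, S q) = 0)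
    (good : ∀ᶠ v in 𝓝 (0 : (E × H E P × H E V) × H E V), (G v = 0 → S v.1 = v.2) ∧ ∀ x,
        G v x = fs (R v.2 x) - κ x • (fs (R v.2 x) - fs (R v.2 x₁)) -
          F (v.1.2.1 x, JI (D v.1.1 x, R v.2 x)) - v.1.2.2 x) :
    ∃ δ : ℝ, 0 < δ ∧ (∀ η : ℝ, 0 < η → ∀ᶠ a in 𝓝 (0 : H E P), ∃ (h : H E J) (c : V), ‖h‖ < η ∧
      IsJ h ∧ ∀ x ∈ ball (0 : E) r, F (a x, h x) = c) ∧
    ∀ (a : H E P) (h : H E J) (c : V), ‖a‖ < δ → ‖h‖ < δ → IsJ h →
      (∀ x ∈ ball (0 : E) r, F (a x, h x) = c) → ∃ T : E × H E P → V, AnalyticAt ℝ T (0, a) ∧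
        ∀ᶠ τ in 𝓝 (0 : E), ∀ a' : H E P, (∀ x, a' x = a (x + β x • τ)) →
          fs (h τ) = T (τ, a') := by
  let tr : H E (J) →L[ℝ] H E V := Hol.map (fs - tl)
  have Rtr : ∀ h : H E (J), IsJ h → R (tr h) = h := fun h hh =>
    (R3 h (tr h) hh fun _ => rfl).symm
  obtain ⟨ρ₁, hρ₁, b1⟩ := Metric.eventually_nhds_iff_ball.1 good
  obtain ⟨ρ₂, hρ₂, b2⟩ := Metric.eventually_nhds_iff_ball.1 S1.eventually_analyticAt
  set ρ := min ρ₁ ρ₂ with hρd
  have hρ : 0 < ρ := lt_min hρ₁ hρ₂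
  obtain ⟨ρ₃, hρ₃, b3⟩ := Metric.continuousAt_iff.1 hG ρ hρ
  set σ := min ρ ρ₃ with hσd
  have hσ : 0 < σ := lt_min hρ hρ₃
  have hM := norm_nonneg tr
  refine ⟨σ / ((‖tr‖ + 1) * (C + 1)), by positivity,
    fun η hη => ?_, fun a h c ha hh hj he => ?_⟩
  · have h1 : ContinuousAt (fun a : H E P => ((0 : E), a, (0 : H E V))) 0 := by fun_prop
    have h2 : ContinuousAt (fun a : H E P => S ((0 : E), a, (0 : H E V))) 0 :=
      ContinuousAt.comp_of_eq S1.continuousAt h1 rfl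
    have h3 : Tendsto (fun a : H E P => (((0 : E), a, (0 : H E V)), S (0, a, 0))) (𝓝 0) (𝓝 0) := by
      have := (h1.prodMk h2).tendsto
      rwa [show S (0, 0, 0) = 0 from S0] at this
    have h4 : Tendsto (fun a : H E P => ‖R (S ((0 : E), a, (0 : H E V)))‖) (𝓝 0) (𝓝 0) := by
      have := (R.continuous.continuousAt.comp h2).norm.tendsto
      rwa [Function.comp_apply, show S (0, 0, 0) = 0 from S0, map_zero, norm_zero] at this
    filter_upwards [h3.eventually good, h1.tendsto.eventually S2, h4.eventually (gt_mem_nhds hη)]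
      with a a1 a2 a3
    refine ⟨R (S (0, a, 0)), fs (R (S (0, a, 0)) x₁), a3, R1 _, fun x hx => ?_⟩
    have h5 := a1.2 x
    rw [a2, κ1 x hx] at h5
    have e2 : D (0 : E) x = 0 := by rw [map_zero]; rfl
    change (0 : V) = _ - _ - F (a x, JI (D 0 x, R (S (0, a, 0)) x)) - 0 at h5
    rw [e2, J2, one_smul, sub_sub_cancel, sub_zero] at h5
    exact (sub_eq_zero.1 h5.symm).symm
  · have hden : 0 < (‖tr‖ + 1) * (C + 1) := by positivity
    rw [lt_div_iff₀ hden] at ha hh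
    have na := norm_nonneg a
    have nh := norm_nonneg h
    have s1 : ∀ t : ℝ, 0 ≤ t → t * ((‖tr‖ + 1) * (C + 1)) < σ →
        t < σ ∧ C * t < σ ∧ ‖tr‖ * t < σ ∧ ‖tr‖ * (C * t) < σ := fun t ht h => by
      have p1 := mul_nonneg hM ht
      have p2 := mul_nonneg hC0.le ht
      have p3 := mul_nonneg hM p2
      refine ⟨?_, ?_, ?_, ?_⟩ <;> nlinarith
    obtain ⟨a1, a2, -, -⟩ := s1 _ na ha
    obtain ⟨-, -, a3, a4⟩ := s1 _ nh hh
    have σρ : σ ≤ ρ := min_le_left _ _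
    have σ3 : σ ≤ ρ₃ := min_le_right _ _
    have ρ1 : ρ ≤ ρ₁ := min_le_left _ _
    have ρ2 : ρ ≤ ρ₂ := min_le_right _ _
    have nrm : ∀ (τ : E) (a : H E P) (g φ : H E V) (s : ℝ), ‖τ‖ < s → ‖a‖ < s → ‖g‖ < s →
        ‖φ‖ < s → ‖(((τ, a, g), φ) : (E × H E P × H E V) × H E V)‖ < s :=
      fun τ a g φ s h1 h2 h3 h4 => max_lt (max_lt h1 (max_lt h2 h3)) h4
    have n0 : ‖((((0 : E), a, (0 : H E V)), tr h) : (E × H E P × H E V) × H E V)‖ < σ :=
      nrm _ _ _ _ _ (by rwa [norm_zero]) a1 (by rwa [norm_zero]) ((tr.le_opNorm h).trans_lt a3)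
    set g := G ((0, a, 0), tr h) with hg
    have ng : ‖g‖ < ρ := by
      have := b3 (x := ((0, a, 0), tr h)) (by rw [dist_zero_right]; exact n0.trans_le σ3)
      rwa [G0, dist_zero_right] at this
    have gv : ∀ x, g x = fs (h x) - κ x • (fs (h x) - fs (h x₁)) - F (a x, h x) := fun x => by
      have h5 := (b1 _ (mem_ball_zero_iff.2 (n0.trans_le (σρ.trans ρ1)))).2 x
      have e2 : D (0 : E) x = 0 := by rw [map_zero]; rfl
      change g x = fs (R (tr h) x) - κ x • (fs (R (tr h) x) - fs (R (tr h) x₁)) -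
        F (a x, JI (D 0 x, R (tr h) x)) - 0 at h5
      rwa [e2, J2, Rtr h hj, sub_zero] at h5
    let ev : H E V →L[ℝ] V := (fs.comp (Hol.evalL 0)).comp R
    refine ⟨fun q => ev (S (q.1, q.2, g)), ?_, ?_⟩
    · refine (ev.analyticAt _).comp (AnalyticAt.comp (g := S) (b2 _ ?_)
        (analyticAt_fst.prod (analyticAt_snd.prod analyticAt_const)))
      refine mem_ball_zero_iff.2 (lt_of_lt_of_le ?_ ρ2)
      exact max_lt (by rwa [norm_zero]) (max_lt (a1.trans_le σρ) ng)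
    · filter_upwards [J4, ball_mem_nhds (0 : E) hρ, ball_mem_nhds (0 : E) (half_pos hr)]
        with τ t1 t2 t3 a' ha'
      rw [mem_ball_zero_iff] at t2 t3
      obtain ⟨a'', c1, c2⟩ := t1.1 a
      obtain rfl : a' = a'' := Hol.coe_injective (funext fun x => (ha' x).trans (c2 x).symm)
      obtain ⟨h', d1, d2, d3⟩ := t1.2 h hj
      have n1 : ‖(((τ, a', g), tr h') : (E × H E P × H E V) × H E V)‖ < ρ :=
        nrm _ _ _ _ _ t2 ((c1.trans_lt a2).trans_le σρ) ng (((tr.le_opNorm h').trans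
          (mul_le_mul_of_nonneg_left d2 hM)).trans_lt (a4.trans_le σρ))
      obtain ⟨e2, e1⟩ := b1 _ (mem_ball_zero_iff.2 (n1.trans_le ρ1))
      have β3 : β x₁ = 0 := β1 _ hx₁.le
      have z : G ((τ, a', g), tr h') = 0 := by
        refine Hol.coe_injective (funext fun x => ?_)
        have h5 := e1 x
        change G ((τ, a', g), tr h') x = fs (R (tr h') x) - κ x • (fs (R (tr h') x) -
          fs (R (tr h') x₁)) - F (a' x, JI (D τ x, R (tr h') x)) - g x at h5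
        rw [Rtr h' d1, ← (d3 x).2, (d3 x).1, (d3 x₁).1, β3, zero_smul, add_zero, ha', gv] at h5
        show G ((τ, a', g), tr h') x = 0
        rw [h5]
        by_cases hx : r / 2 ≤ ‖x‖
        · rw [β1 x hx, zero_smul, add_zero, sub_self]
        · have m1 : x ∈ ball (0 : E) r := mem_ball_zero_iff.2 (by linarith [not_le.1 hx])
          have m2 : x + β x • τ ∈ ball (0 : E) r := by
            refine mem_ball_zero_iff.2 ((norm_add_le _ _).trans_lt ?_)
            rw [norm_smul]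
            have := mul_le_mul_of_nonneg_right (β2 x) (norm_nonneg τ)
            linarith [not_le.1 hx]
          rw [κ1 x m1, he _ m1, he _ m2, one_smul, one_smul]
          abel
      show fs (h τ) = fs (R (S (τ, a', g)) 0)
      rw [show S (τ, a', g) = tr h' from e2 z, Rtr h' d1, (d3 0).1,
        β0, one_smul, zero_add]

end Core

open Core in
theorem core_of (hR : RES) (hC : CUT) (hN : ANEM) (hP : COMP) : CORE := by
  intro E _ _ _ ι _ b hE V _ _ _ P _ _ _ F hF h0 hD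
  have := FiniteDimensional.complete ℝ E
  have := FiniteDimensional.complete ℝ V
  have := FiniteDimensional.complete ℝ P
  obtain ⟨R, R1, R2, R3⟩ := hR E ι b V
  obtain ⟨r, x₁, κ, K, hr, hx₁, κ1, K1, K2⟩ := hC E hE V (1 / (2 * (‖R‖ + 1))) (by positivity)
  let β : ContDiffBump (0 : E) := ⟨r / 4, r / 2, by positivity, by linarith⟩
  obtain ⟨JI, D, C, hC0, J1, J2, -, J4⟩ := hP E V P β β.contDiff β.hasCompactSupport
  have J0 : JI 0 = 0 := J2 0
  have hΦ : AnalyticAt ℝ (fun p : P × Ch E × Jt E V => F (p.1, JI p.2) - trL b p.2.2) 0 := by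
    have h1 : AnalyticAt ℝ (fun p : P × Ch E × Jt E V => (p.1, JI p.2)) 0 :=
      analyticAt_fst.prod (J1.comp_of_eq analyticAt_snd rfl)
    have h2 : AnalyticAt ℝ (fun p : P × Ch E × Jt E V => p.2.2) 0 :=
      AnalyticAt.comp (g := Prod.snd) analyticAt_snd analyticAt_snd
    refine (hF.comp_of_eq h1 ?_).sub (AnalyticAt.comp (g := trL b) 
      (ContinuousLinearMap.analyticAt (𝕜 := ℝ) (E := Jt E V) (F := V) (trL b) _) h2)
    show ((0 : P), JI 0) = 0
    rw [J0]; rfl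
  obtain ⟨N, N1, N2⟩ := hN E (wt E) (P × Ch E × Jt E V) V _ hΦ
  have hk : ‖K.comp R‖ < 1 := by
    have : ‖K.comp R‖ ≤ 1 / 2 := by
      refine ContinuousLinearMap.opNorm_le_bound _ (by norm_num) fun φ => ?_
      refine (K2 _ (R1 φ)).trans ?_
      have h1 := R.le_opNorm φ
      have h2 := norm_nonneg φ
      have h3 := norm_nonneg R
      rw [div_mul_eq_mul_div, div_le_iff₀ (by positivity)]
      nlinarith
    linarith
  obtain ⟨G, S, g1, g2, g3, g4, g5, g6⟩ := setup (J := Jt E V) (Cc := Ch E) (tl := trL b)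
    (fs := ContinuousLinearMap.fst ℝ V _) (R := R) (K := K) (F := F) (JI := JI) R2 K1 hk h0 hD J2 D N1 N2
  obtain ⟨δ, d1, d2, d3⟩ := main (J := Jt E V) (Cc := Ch E) (fs := ContinuousLinearMap.fst ℝ V _)
    (tl := trL b) (R := R) (F := F) (JI := JI) (D := D)
    (IsJ := fun h => IsJet h) R1 R3 hr hx₁ κ1 (β := β)
    (β.one_of_mem_closedBall (mem_closedBall_self β.rIn_pos.le))
    (fun x hx => β.zero_of_le_dist (by rwa [dist_zero_right]))
    (fun x => by rw [Real.norm_of_nonneg β.nonneg]; exact β.le_one) J2 hC0 J4 g1 g2 g3 g4 g5 g6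
  exact ⟨r, δ, β, hr, d1, β.contDiff, β.hasCompactSupport, d2, d3⟩

end Vale.Agent.P301Z.An
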