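import Vale.Agent.P272.K.Stmt
import Vale.Agent.P272.K.LIN.Hol

/-!
# P301Z, block ANA (Newlander-Nirenberg): definitions
-/

open scoped ContDiff Topology NNReal
open Set Filter Complex Module
open Vale.Agent.P272.K Vale.Agent.P272.K.LIN

noncomputable section

namespace Vale.Agent.P301Z.An

section jets

variable {E V : Type} [NormedAddCommGroup E] [NormedSpace ℝ E] [NormedAddCommGroup V]
  [NormedSpace ℝ V]

/-- smooth near `x` -/
def Sm (f : E → V) (x : E) : Prop := ∀ᶠ y in 𝓝 x, ContDiffAt ℝ ∞ f y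

/-- two-jets -/
abbrev Jt (E V : Type) [NormedAddCommGroup E] [NormedSpace ℝ E] [NormedAddCommGroup V]
    [NormedSpace ℝ V] : Type := V × (E →L[ℝ] V) × (E →L[ℝ] E →L[ℝ] V)

/-- first and second derivatives of a change of variables -/
abbrev Ch (E : Type) [NormedAddCommGroup E] [NormedSpace ℝ E] : Type :=
  (E →L[ℝ] E) × (E →L[ℝ] E →L[ℝ] E)

/-- the two-jet of `u` at `x` -/
def jt (u : E → V) (x : E) : Jt E V := (u x, fderiv ℝ u x, fderiv ℝ (fderiv ℝ u) x)

/-- the Laplacian -/
def trL {ι : Type} [Fintype ι] (b : ι → E) : Jt E V →L[ℝ] V :=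
  ∑ i, ((ContinuousLinearMap.apply ℝ V (b i)).comp
    (ContinuousLinearMap.apply ℝ (E →L[ℝ] V) (b i))).comp
      ((ContinuousLinearMap.snd ℝ _ _).comp (ContinuousLinearMap.snd ℝ _ _))

theorem trL_apply {ι : Type} [Fintype ι] (b : ι → E) (j : Jt E V) :
    trL b j = ∑ i, j.2.2 (b i) (b i) := by
  simp [trL]

/-- the weight of the Hoelder norm of exponent one half -/
def wt (E : Type) [NormedAddCommGroup E] : E → E → ℝ≥0 := fun x y => ‖x - y‖₊ ^ (1 / 2 : ℝ)

theorem coe_wt (x y : E) : (wt E x y : ℝ) = ‖x - y‖ ^ (1 / 2 : ℝ) := by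
  simp [wt]

/-- bounded Hoelder functions -/
abbrev H (E V : Type) [NormedAddCommGroup E] [NormedAddCommGroup V] : Type := Hol (wt E) V

/-- `h` is the jet of its first component -/
def IsJet (h : E → Jt E V) : Prop :=
  ∀ x, HasFDerivAt (fun y => (h y).1) (h x).2.1 x ∧ HasFDerivAt (fun y => (h y).2.1) (h x).2.2 x

theorem IsJet.eq {h : E → Jt E V} (hh : IsJet h) (x : E) : jt (fun y => (h y).1) x = h x := by
  have h1 : fderiv ℝ (fun y => (h y).1) = fun y => (h y).2.1 := funext fun y => (hh y).1.fderiv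
  rw [jt, h1, (hh x).2.fderiv]

theorem isJet_jt {u : E → V} (hu : ContDiff ℝ ∞ u) : IsJet (jt u) := fun x =>
  ⟨(hu.differentiable (by simp) x).hasFDerivAt,
    ((hu.fderiv_right (m := ∞) le_rfl).differentiable (by simp) x).hasFDerivAt⟩

/-- the derivative along the fibre -/
def Dy {P : Type} (f : P × E → V) (q : P × E) : E →L[ℝ] V := fderiv ℝ (fun y => f (q.1, y)) q.2

end jets

section forms

variable {E F : Type} [NormedAddCommGroup E] [NormedSpace ℝ E] [NormedAddCommGroup F]
  [NormedSpace ℝ F] [NormedSpace ℂ F]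

/-- the exterior derivative, `D` is the derivative of a one-form -/
def dd (D : E →L[ℝ] E →L[ℝ] F) (u v : E) : F := D u v - D v u

/-- the two-form `dd D` has no component of type `(0, 2)` for the structure defined by `T` -/
def Int0 (T : E →L[ℝ] F) (D : E →L[ℝ] E →L[ℝ] F) : Prop :=
  ∀ u u' v v', T u' = I • T u → T v' = I • T v →
    dd D u v - dd D u' v' + I • dd D u' v + I • dd D u v' = 0

/-- integrability at `x` of the structure for which `θ` has type `(1, 0)` -/
def Int (θ : E → E →L[ℝ] F) (x : E) : Prop := Int0 (θ x) (fderiv ℝ θ x)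

/-- `D` is complex linear for the structure defined by `T` -/
def Cl {G : Type} [NormedAddCommGroup G] [NormedSpace ℝ G] [NormedSpace ℂ G] (T : E →L[ℝ] F)
    (D : E →L[ℝ] G) : Prop := ∀ u u', T u' = I • T u → D u' = I • D u

/-- complex linear -/
def Lin (T : F →L[ℝ] F) : Prop := ∀ u, T (I • u) = I • T u

/-- conjugate linear -/
def Anti (T : F →L[ℝ] F) : Prop := ∀ u, T (I • u) = -(I • T u)

/-- the integrability condition for a Beltrami coefficient -/
def Bel (B : F → F →L[ℝ] F) (x : F) : Prop :=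
  ∀ a c, fderiv ℝ B x (a - B x a) c + I • fderiv ℝ B x (I • (a + B x a)) c =
    fderiv ℝ B x (c - B x c) a + I • fderiv ℝ B x (I • (c + B x c)) a

end forms

/-- the real basis of `ℂ^N` -/
def rb (N : ℕ) : Basis (Fin 2 × Fin N) ℝ (Cm N) := basisOneI.smulTower (Pi.basisFun ℂ (Fin N))

theorem sum_rb {N : ℕ} {M : Type} [AddCommMonoid M] (f : Cm N → M) :
    ∑ i, f (rb N i) = ∑ j, (f (Pi.single j 1) + f (I • Pi.single j 1)) := by
  rw [Fintype.sum_prod_type_right]
  refine Finset.sum_congr rfl fun j _ => ?_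
  simp [rb, Basis.smulTower_apply]

theorem sum_rb_I {N : ℕ} {M : Type} [NormedAddCommGroup M] [NormedSpace ℝ M]
    (r : Cm N →L[ℝ] Cm N →L[ℝ] M) (hr : ∀ u v, r u v = r v u) :
    ∑ i, r (rb N i) (I • rb N i) = 0 := by
  rw [sum_rb fun u => r u (I • u)]
  refine Finset.sum_eq_zero fun j _ => ?_
  rw [smul_smul, I_mul_I, neg_one_smul, map_neg, hr, add_neg_cancel]

/-- the divergence -/
def dv {N : ℕ} (B : Cm N → Cm N →L[ℝ] Cm N) (x : Cm N) : Cm N :=
  ∑ i, fderiv ℝ B x (rb N i) (rb N i)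

end Vale.Agent.P301Z.An
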