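import Mathlib
import Vale.Agent.P301Z.An.Sk

/-!
# P301Z, block ANA: algebra and calculus for the gauge
-/

open scoped ContDiff Topology
open Set Filter

noncomputable section

namespace Vale.Agent.P301Z.An.Gauge

section algebra

variable {A : Type} [NormedRing A] [NormedAlgebra ℝ A] (J : A)

/-- the part which commutes with `J` -/
def Lp : A →L[ℝ] A :=
  (1 / 2 : ℝ) • (ContinuousLinearMap.id ℝ A - ContinuousLinearMap.mulLeftRight ℝ A J J)

/-- the part which anticommutes with `J` -/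
def Lm : A →L[ℝ] A :=
  (1 / 2 : ℝ) • (ContinuousLinearMap.id ℝ A + ContinuousLinearMap.mulLeftRight ℝ A J J)

theorem Lp_apply (S : A) : Lp J S = (1 / 2 : ℝ) • (S - J * S * J) := by simp [Lp]

theorem Lm_apply (S : A) : Lm J S = (1 / 2 : ℝ) • (S + J * S * J) := by simp [Lm]

theorem Lp_add_Lm (S : A) : Lp J S + Lm J S = S := by
  rw [Lp_apply, Lm_apply]
  module

/-- the new frame -/
def Sq (p : A × A) : A := p.1 * Ring.inverse (1 + p.2)

/-- the inverse of the linear part -/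
def Mu (p : A × A) : A := Ring.inverse (Lp J (Sq p))

/-- the Beltrami coefficient -/
def Ps (p : A × A) : A := Mu J p * Lm J (Sq p)

/-- the domain of `Ps` -/
def Gd (p : A × A) : Prop := IsUnit (1 + p.2) ∧ IsUnit (Lp J (Sq p))

variable {J}

theorem Lp_comm (hJ : J * J = -1) (S : A) : Lp J S * J = J * Lp J S := by
  rw [Lp_apply, smul_mul_assoc, mul_smul_comm, sub_mul, mul_sub, mul_assoc, hJ, ← mul_assoc,
    ← mul_assoc, hJ]
  congr 1
  noncomm_ring

theorem Lm_anti (hJ : J * J = -1) (S : A) : Lm J S * J = -(J * Lm J S) := by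
  rw [Lm_apply, smul_mul_assoc, mul_smul_comm, add_mul, mul_add, mul_assoc, hJ, ← mul_assoc,
    ← mul_assoc, hJ, ← smul_neg]
  congr 1
  noncomm_ring

theorem Lp_one (hJ : J * J = -1) : Lp J 1 = 1 := by
  rw [Lp_apply, mul_one, hJ]
  module

theorem Lm_one (hJ : J * J = -1) : Lm J 1 = 0 := by
  rw [Lm_apply, mul_one, hJ, add_neg_cancel, smul_zero]

omit [NormedAlgebra ℝ A] in
theorem Sq_one : Sq ((1, 0) : A × A) = 1 := by simp [Sq]

theorem Mu_one (hJ : J * J = -1) : Mu J (1, 0) = 1 := by simp [Mu, Sq_one, Lp_one hJ]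

theorem Ps_one (hJ : J * J = -1) : Ps J (1, 0) = 0 := by simp [Ps, Sq_one, Lm_one hJ]

theorem Gd_one (hJ : J * J = -1) : Gd J (1, 0) := by simp [Gd, Sq_one, Lp_one hJ]

theorem Mu_comm (hJ : J * J = -1) (p : A × A) : Mu J p * J = J * Mu J p := by
  by_cases h : IsUnit (Lp J (Sq p))
  · rw [Mu, Ring.inverse_mul_eq_iff_eq_mul _ _ _ h, ← mul_assoc, Lp_comm hJ,
      Ring.mul_inverse_cancel_right _ _ h]
  · rw [Mu, Ring.inverse_non_unit _ h, zero_mul, mul_zero]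

theorem Ps_anti (hJ : J * J = -1) (p : A × A) : Ps J p * J = -(J * Ps J p) := by
  rw [Ps, mul_assoc, Lm_anti hJ, mul_neg, ← mul_assoc, Mu_comm hJ, mul_assoc]

theorem Gd.one_add {p : A × A} (h : Gd J p) : 1 + Ps J p = Mu J p * Sq p := by
  conv_rhs => rw [← Lp_add_Lm J (Sq p), mul_add, Mu, Ring.inverse_mul_cancel _ h.2]
  rfl

variable [CompleteSpace A]

theorem cd_inv {E : Type} [NormedAddCommGroup E] [NormedSpace ℝ E] {f : E → A} {x : E}
    {n : WithTop ℕ∞} (hf : ContDiffAt ℝ n f x) (h : IsUnit (f x)) :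
    ContDiffAt ℝ n (fun y => Ring.inverse (f y)) x :=
  ContDiffAt.comp (g := Ring.inverse) x (h.unit_spec ▸ contDiffAt_ringInverse ℝ h.unit) hf

theorem cd_Sq {p : A × A} {n : WithTop ℕ∞} (h : IsUnit (1 + p.2)) : ContDiffAt ℝ n Sq p :=
  contDiffAt_fst.mul (cd_inv (contDiffAt_const.add contDiffAt_snd) h)

theorem Gd.cd_Mu {p : A × A} {n : WithTop ℕ∞} (h : Gd J p) : ContDiffAt ℝ n (Mu J) p :=
  cd_inv ((Lp J).contDiff.contDiffAt.comp p (cd_Sq h.1)) h.2

theorem Gd.cd_Ps {p : A × A} {n : WithTop ℕ∞} (h : Gd J p) : ContDiffAt ℝ n (Ps J) p :=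
  h.cd_Mu.mul ((Lm J).contDiff.contDiffAt.comp p (cd_Sq h.1))

theorem Gd.ev {p : A × A} (h : Gd J p) : ∀ᶠ q in 𝓝 p, Gd J q :=
  ((continuous_const.add continuous_snd).continuousAt.eventually (Units.isOpen.mem_nhds h.1)).and
    (((Lp J).continuous.continuousAt.comp (cd_Sq (n := 0) h.1).continuousAt).eventually
      (Units.isOpen.mem_nhds h.2))

theorem fderiv_Ps (hJ : J * J = -1) (s : A) : fderiv ℝ (Ps J) (1, 0) (0, s) = -Lm J s := by
  have h1 : HasFDerivAt (fun p : A × A => Ring.inverse (1 + p.2))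
      (-ContinuousLinearMap.snd ℝ A A) (1, 0) := by
    have h := hasFDerivAt_ringInverse (𝕜 := ℝ) (1 : Aˣ)
    rw [show ((1 : Aˣ) : A) = 1 + ((1, 0) : A × A).2 by simp] at h
    refine (h.comp ((1, 0) : A × A) (hasFDerivAt_snd.const_add 1)).congr_fderiv ?_
    ext <;> simp
  have h2 := (Lm J).hasFDerivAt.comp ((1, 0) : A × A) (hasFDerivAt_fst.mul' h1)
  have h3 := ((Gd_one hJ).cd_Mu (n := 1)).differentiableAt one_ne_zero |>.hasFDerivAt.mul' h2
  have h4 : fderiv ℝ (Ps J) (1, 0) = _ := h3.fderiv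
  rw [h4]
  simp [Mu_one hJ, Lm_one hJ]

end algebra

section calculus

variable {E V : Type} [NormedAddCommGroup E] [NormedSpace ℝ E] [NormedAddCommGroup V]
  [NormedSpace ℝ V]

theorem cd_fderiv {f : E → V} {x : E} (h : ContDiffAt ℝ ∞ f x) :
    ContDiffAt ℝ ∞ (fderiv ℝ f) x := h.fderiv_right le_rfl

theorem glob [FiniteDimensional ℝ E] {θ : E → V} (h : Sm θ 0) :
    ∃ θ' : E → V, ContDiff ℝ ∞ θ' ∧ θ' =ᶠ[𝓝 0] θ := by
  obtain ⟨r, hr, h1⟩ := Metric.nhds_basis_closedBall.eventually_iff.1 h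
  let χ : ContDiffBump (0 : E) := ⟨r / 2, r, half_pos hr, half_lt_self hr⟩
  refine ⟨fun x => χ x • θ x, contMDiff_iff_contDiff.1 (contMDiff_of_tsupport fun x hx =>
    (χ.contDiff.contDiffAt.smul (h1 ?_)).contMDiffAt), ?_⟩
  · exact χ.tsupport_eq.le (tsupport_smul_subset_left _ _ hx)
  · filter_upwards [χ.eventuallyEq_one] with x hx
    simp [hx]

theorem inv_loc [CompleteSpace E] {f : E → E} (hf : Sm f 0) (h0 : f 0 = 0)
    (hu : IsUnit (fderiv ℝ f 0)) : ∃ g : E → E, Sm g 0 ∧ g 0 = 0 ∧ (∀ᶠ x in 𝓝 0, g (f x) = x) ∧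
      ∀ᶠ w in 𝓝 0, fderiv ℝ g w = Ring.inverse (fderiv ℝ f (g w)) := by
  have key : ∀ x, ContDiffAt ℝ ∞ f x → IsUnit (fderiv ℝ f x) →
      ∃ e : E ≃L[ℝ] E, HasFDerivAt f (e : E →L[ℝ] E) x := fun x hx h =>
    ⟨ContinuousLinearEquiv.ofUnit h.unit, (hx.differentiableAt (by simp)).hasFDerivAt⟩
  have hf0 : ContDiffAt ℝ ∞ f 0 := hf.self_of_nhds
  obtain ⟨e, he⟩ := key 0 hf0 hu
  let Φ := hf0.toOpenPartialHomeomorph f he (by simp)
  have hs : 0 ∈ Φ.source := hf0.mem_toOpenPartialHomeomorph_source he _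
  have ht : 0 ∈ Φ.target := h0 ▸ Φ.map_source hs
  have hg0 : Φ.symm 0 = 0 := by
    have := Φ.left_inv hs
    rwa [show Φ 0 = 0 from h0] at this
  have hc : Tendsto Φ.symm (𝓝 0) (𝓝 0) := by
    have := (Φ.continuousAt_symm ht).tendsto
    rwa [hg0] at this
  have h1 := hc.eventually (hf.and ((cd_fderiv hf0).continuousAt.eventually
    (Units.isOpen.mem_nhds hu)))
  have h2 : Sm Φ.symm 0 := by
    filter_upwards [h1, Φ.open_target.mem_nhds ht] with w hw hwt
    obtain ⟨e', he'⟩ := key _ hw.1 hw.2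
    exact Φ.contDiffAt_symm hwt he' hw.1
  refine ⟨Φ.symm, h2, hg0, Φ.eventually_left_inverse hs, ?_⟩
  filter_upwards [h1, h2, Φ.open_target.mem_nhds ht] with w hw hg hwt
  have h3 := ((hw.1.differentiableAt (by simp)).hasFDerivAt.comp w
    (hg.differentiableAt (by simp)).hasFDerivAt).unique
    ((hasFDerivAt_id w).congr_of_eventuallyEq (Φ.eventually_right_inverse hwt))
  have h4 : fderiv ℝ f (Φ.symm w) * fderiv ℝ Φ.symm w = 1 := h3
  rw [← Ring.inverse_mul_cancel_left _ (fderiv ℝ Φ.symm w) hw.2, h4, mul_one]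

end calculus

end Vale.Agent.P301Z.An.Gauge
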